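import Mathlib.MeasureTheory.Constructions.Pi
import Mathlib.MeasureTheory.Integral.Prod
import Mathlib.Analysis.SpecialFunctions.Log.NegMulLog
import Mathlib.Tactic

/-! Entropy functional and its tensorisation over finite products of probability laws. -/

namespace Vale.Agent.P245

open MeasureTheory Set Function

/-- `Ent_μ g = ∫ g log g - (∫ g) log (∫ g)`. -/
noncomputable def ent {α : Type*} [MeasurableSpace α] (μ : Measure α) (g : α → ℝ) : ℝ :=
  (∫ x, g x * Real.log (g x) ∂μ) - (∫ x, g x ∂μ) * Real.log (∫ x, g x ∂μ)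

lemma integrable_of_bdd {α : Type*} [MeasurableSpace α] {μ : Measure α} [IsFiniteMeasure μ]
    {g : α → ℝ} (hg : Measurable g) {B : ℝ} (hB : ∀ x, |g x| ≤ B) : Integrable g μ :=
  Integrable.mono' (integrable_const B) hg.aestronglyMeasurable
    (Filter.Eventually.of_forall fun x => by rw [Real.norm_eq_abs]; exact hB x)

lemma abs_log_le {m M x : ℝ} (hm : 0 < m) (h1 : m ≤ x) (h2 : x ≤ M) :
    |Real.log x| ≤ |Real.log m| + |Real.log M| := by
  have ha := Real.log_le_log hm h1
  have hb := Real.log_le_log (hm.trans_le h1) h2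
  rw [abs_le]
  constructor <;> linarith [neg_abs_le (Real.log m), le_abs_self (Real.log M),
    abs_nonneg (Real.log m), abs_nonneg (Real.log M)]

lemma abs_mul_log_le {m M x : ℝ} (hm : 0 < m) (h1 : m ≤ x) (h2 : x ≤ M) :
    |x * Real.log x| ≤ M * (|Real.log m| + |Real.log M|) := by
  rw [abs_mul, abs_of_pos (hm.trans_le h1)]
  exact mul_le_mul h2 (abs_log_le hm h1 h2) (abs_nonneg _) ((hm.trans_le h1).le.trans h2)

lemma integral_mem {α : Type*} [MeasurableSpace α] {μ : Measure α} [IsProbabilityMeasure μ]
    {g : α → ℝ} (hg : Measurable g) {m M : ℝ} (hm : 0 < m) (hb : ∀ x, m ≤ g x ∧ g x ≤ M) :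
    m ≤ ∫ x, g x ∂μ ∧ ∫ x, g x ∂μ ≤ M := by
  have hi : Integrable g μ := integrable_of_bdd hg (B := M) (fun x => by
    rw [abs_of_pos (hm.trans_le (hb x).1)]; exact (hb x).2)
  constructor
  · simpa using integral_mono (integrable_const m) hi (fun x => (hb x).1)
  · simpa using integral_mono hi (integrable_const M) (fun x => (hb x).2)

/-- Variational inequality for the entropy. -/
lemma integral_mul_le_ent {α : Type*} [MeasurableSpace α] {μ : Measure α} [IsProbabilityMeasure μ]
    {g η : α → ℝ} (hg : Measurable g) {m M : ℝ} (hm : 0 < m) (hb : ∀ x, m ≤ g x ∧ g x ≤ M)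
    (hη : Measurable η) {B : ℝ} (hηb : ∀ x, |η x| ≤ B) (h1 : ∫ x, Real.exp (η x) ∂μ ≤ 1) :
    ∫ x, g x * η x ∂μ ≤ ent μ g := by
  set Z := ∫ x, g x ∂μ with hZ
  obtain ⟨hZ1, hZ2⟩ := integral_mem (μ := μ) hg hm hb
  have hZ0 : 0 < Z := hm.trans_le hZ1
  have hpt : ∀ x, g x * η x + g x * (1 + Real.log Z) ≤ g x * Real.log (g x) + Z * Real.exp (η x) := by
    intro x
    have hx : 0 < g x := hm.trans_le (hb x).1
    have := Real.log_le_sub_one_of_pos (show 0 < Z * Real.exp (η x) / g x by positivity)
    rw [Real.log_div (by positivity) hx.ne', Real.log_mul hZ0.ne' (Real.exp_ne_zero _),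
      Real.log_exp] at this
    have h2 := mul_le_mul_of_nonneg_left this hx.le
    have e : g x * (Z * Real.exp (η x) / g x - 1) = Z * Real.exp (η x) - g x := by
      field_simp
    rw [e] at h2
    linarith
  have hgi : Integrable g μ := integrable_of_bdd hg (B := M) (fun x => by
    rw [abs_of_pos (hm.trans_le (hb x).1)]; exact (hb x).2)
  have i1 : Integrable (fun x => g x * η x) μ := integrable_of_bdd (hg.mul hη) (B := M * B)
    (fun x => by
      rw [abs_mul, abs_of_pos (hm.trans_le (hb x).1)]
      exact mul_le_mul (hb x).2 (hηb x) (abs_nonneg _) ((hm.trans_le (hb x).1).le.trans (hb x).2))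
  have i2 : Integrable (fun x => g x * Real.log (g x)) μ :=
    integrable_of_bdd (hg.mul hg.log) (fun x => abs_mul_log_le hm (hb x).1 (hb x).2)
  have i3 : Integrable (fun x => Real.exp (η x)) μ := integrable_of_bdd hη.exp (B := Real.exp B)
    (fun x => by rw [abs_of_pos (Real.exp_pos _)]; exact Real.exp_le_exp.mpr (abs_le.mp (hηb x)).2)
  have := integral_mono (i1.add (hgi.mul_const (1 + Real.log Z))) (i2.add (i3.const_mul Z)) hpt
  simp only [Pi.add_apply] at this
  rw [integral_add i1 (hgi.mul_const _), integral_add i2 (i3.const_mul Z), integral_mul_const,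
    integral_const_mul, ← hZ] at this
  show _ ≤ (∫ x, g x * Real.log (g x) ∂μ) - Z * Real.log Z
  nlinarith [mul_le_mul_of_nonneg_left h1 hZ0.le]

lemma abs_ent_le {α : Type*} [MeasurableSpace α] {μ : Measure α} [IsProbabilityMeasure μ]
    {g : α → ℝ} (hg : Measurable g) {m M : ℝ} (hm : 0 < m) (hb : ∀ x, m ≤ g x ∧ g x ≤ M) :
    |ent μ g| ≤ 2 * (M * (|Real.log m| + |Real.log M|)) := by
  obtain ⟨h3, h4⟩ := integral_mem (μ := μ) hg hm hb
  refine (abs_sub _ _).trans ?_
  have h5 := abs_mul_log_le hm h3 h4
  have h6 : |∫ t, g t * Real.log (g t) ∂μ| ≤ M * (|Real.log m| + |Real.log M|) := by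
    have := norm_integral_le_of_norm_le_const (μ := μ) (C := M * (|Real.log m| + |Real.log M|))
      (f := fun t => g t * Real.log (g t))
      (Filter.Eventually.of_forall fun t => abs_mul_log_le hm (hb t).1 (hb t).2)
    simpa using this
  linarith

variable {α β : Type*} [MeasurableSpace α] [MeasurableSpace β] {μ : Measure α} {κ : Measure β}
  [IsProbabilityMeasure μ] [IsProbabilityMeasure κ]

/-- The entropy is convex: the entropy of an average is at most the average entropy. -/
lemma ent_average_le {G : α × β → ℝ} (hG : Measurable G) {m M : ℝ} (hm : 0 < m)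
    (hb : ∀ x, m ≤ G x ∧ G x ≤ M) :
    ent κ (fun b => ∫ a, G (a, b) ∂μ) ≤ ∫ a, ent κ (fun b => G (a, b)) ∂μ := by
  set g := fun b => ∫ a, G (a, b) ∂μ with hg
  have hgm : Measurable g := (hG.stronglyMeasurable.integral_prod_left').measurable
  have hgb : ∀ b, m ≤ g b ∧ g b ≤ M := fun b =>
    integral_mem (hG.comp measurable_prodMk_right) hm (fun a => hb _)
  set Z := ∫ b, g b ∂κ with hZ
  obtain ⟨hZ1, hZ2⟩ := integral_mem (μ := κ) hgm hm hgb
  set η := fun b => Real.log (g b) - Real.log Z with hη
  set B := 2 * (|Real.log m| + |Real.log M|) with hB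
  have hηm : Measurable η := hgm.log.sub measurable_const
  have hηb : ∀ b, |η b| ≤ B := fun b => (abs_sub _ _).trans (by
    linarith [abs_log_le hm (hgb b).1 (hgb b).2, abs_log_le hm hZ1 hZ2])
  have h1 : ∫ b, Real.exp (η b) ∂κ ≤ 1 := by
    have : ∀ b, Real.exp (η b) = g b / Z := fun b => by
      rw [hη]; simp only
      rw [Real.exp_sub, Real.exp_log (hm.trans_le (hgb b).1), Real.exp_log (hm.trans_le hZ1)]
    simp only [this]
    rw [integral_div, ← hZ, div_self (hm.trans_le hZ1).ne']
  have hGη : Measurable (fun p : α × β => G p * η p.2) := hG.mul (hηm.comp measurable_snd)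
  have hi : Integrable (fun p : α × β => G p * η p.2) (μ.prod κ) :=
    integrable_of_bdd hGη (B := M * B) (fun p => by
      rw [abs_mul, abs_of_pos (hm.trans_le (hb p).1)]
      exact mul_le_mul (hb p).2 (hηb _) (abs_nonneg _) ((hm.trans_le (hb p).1).le.trans (hb p).2))
  have e : ent κ g = ∫ a, ∫ b, G (a, b) * η b ∂κ ∂μ := by
    rw [← integral_prod _ hi, integral_prod_symm _ hi]
    simp only [integral_mul_const]
    have i2 : Integrable (fun b => g b * Real.log (g b)) κ :=
      integrable_of_bdd (hgm.mul hgm.log) (fun b => abs_mul_log_le hm (hgb b).1 (hgb b).2)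
    have i3 : Integrable g κ := integrable_of_bdd hgm (B := M) (fun b => by
      rw [abs_of_pos (hm.trans_le (hgb b).1)]; exact (hgb b).2)
    have e2 : (fun b => (∫ a, G (a, b) ∂μ) * η b)
        = fun b => g b * Real.log (g b) - g b * Real.log Z := by
      funext b; simp only [hη, hg]; ring
    rw [e2, integral_sub i2 (i3.mul_const _), integral_mul_const]
    rfl
  rw [e]
  have hem : Measurable (fun a => ent κ (fun b => G (a, b))) := by
    have m1 : Measurable (fun a => ∫ b, G (a, b) ∂κ) :=
      hG.stronglyMeasurable.integral_prod_right'.measurable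
    have m2 : Measurable (fun a => ∫ b, G (a, b) * Real.log (G (a, b)) ∂κ) :=
      (hG.mul hG.log).stronglyMeasurable.integral_prod_right'.measurable
    exact m2.sub (m1.mul m1.log)
  refine integral_mono hi.integral_prod_left (integrable_of_bdd hem
    (B := 2 * (M * (|Real.log m| + |Real.log M|))) fun a => ?_) (fun a =>
    integral_mul_le_ent (hG.comp measurable_prodMk_left) hm (fun b => hb _) hηm hηb h1)
  exact abs_ent_le (hG.comp measurable_prodMk_left) hm (fun b => hb _)

/-- Chain rule for the entropy on a product. -/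
lemma ent_prod {G : α × β → ℝ} (hG : Measurable G) {m M : ℝ} (hm : 0 < m)
    (hb : ∀ x, m ≤ G x ∧ G x ≤ M) :
    ent (μ.prod κ) G
      = (∫ b, ent μ (fun a => G (a, b)) ∂κ) + ent κ (fun b => ∫ a, G (a, b) ∂μ) := by
  set g := fun b => ∫ a, G (a, b) ∂μ with hg
  have hgm : Measurable g := (hG.stronglyMeasurable.integral_prod_left').measurable
  have hgb : ∀ b, m ≤ g b ∧ g b ≤ M := fun b =>
    integral_mem (hG.comp measurable_prodMk_right) hm (fun a => hb _)
  have hi : Integrable G (μ.prod κ) := integrable_of_bdd hG (B := M) (fun x => by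
    rw [abs_of_pos (hm.trans_le (hb x).1)]; exact (hb x).2)
  have hil : Integrable (fun p => G p * Real.log (G p)) (μ.prod κ) :=
    integrable_of_bdd (hG.mul hG.log) (fun p => abs_mul_log_le hm (hb p).1 (hb p).2)
  have i2 : Integrable (fun b => g b * Real.log (g b)) κ :=
    integrable_of_bdd (hgm.mul hgm.log) (fun b => abs_mul_log_le hm (hgb b).1 (hgb b).2)
  unfold ent
  rw [integral_prod_symm _ hi, integral_prod_symm _ hil,
    integral_sub hil.integral_prod_right i2]
  ring

omit [MeasurableSpace α] in
lemma measurePreserving_update {k : ℕ} (ν : Fin k → Measure ℝ) [∀ i, IsProbabilityMeasure (ν i)]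
    (i : Fin k) :
    MeasurePreserving (fun p : (Fin k → ℝ) × ℝ => update p.1 i p.2) ((Measure.pi ν).prod (ν i))
      (Measure.pi ν) := by
  have hm : Measurable (fun p : (Fin k → ℝ) × ℝ => update p.1 i p.2) := measurable_update'
  refine ⟨hm, (Measure.pi_eq fun s hs => ?_).symm⟩
  rw [Measure.map_apply hm (MeasurableSet.univ_pi hs)]
  have e : (fun p : (Fin k → ℝ) × ℝ => update p.1 i p.2) ⁻¹' (univ.pi s)
      = (univ.pi (update s i univ)) ×ˢ s i := by
    ext p
    simp only [mem_preimage, mem_pi, mem_univ, true_implies, mem_prod]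
    constructor
    · intro h
      refine ⟨fun j => ?_, by simpa using h i⟩
      rcases eq_or_ne j i with rfl | hj
      · simp
      · simpa [hj] using h j
    · rintro ⟨h1, h2⟩ j
      rcases eq_or_ne j i with rfl | hj
      · simpa using h2
      · simpa [hj] using h1 j
  rw [e, Measure.prod_prod, Measure.pi_pi, ← Finset.prod_erase_mul _ _ (Finset.mem_univ i),
    ← Finset.prod_erase_mul (Finset.univ) (fun j => ν j (s j)) (Finset.mem_univ i)]
  simp only [update_self, measure_univ, mul_one]
  congr 1
  refine Finset.prod_congr rfl (fun j hj => ?_)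
  rw [update_of_ne (Finset.ne_of_mem_erase hj)]

/-- Subadditivity of entropy on finite products. -/
theorem ent_pi_le : ∀ (k : ℕ) (ν : Fin k → Measure ℝ), (∀ i, IsProbabilityMeasure (ν i)) →
    ∀ (G : (Fin k → ℝ) → ℝ), Measurable G → ∀ (m M : ℝ), 0 < m → (∀ z, m ≤ G z ∧ G z ≤ M) →
    ent (Measure.pi ν) G
      ≤ ∑ i, ∫ z, ent (ν i) (fun t => G (update z i t)) ∂(Measure.pi ν) := by
  intro k
  induction k with
  | zero =>
    intro ν hν G hG m M hm hb
    have hc : ∀ z, G z = G Fin.elim0 := fun z => by rw [Subsingleton.elim z Fin.elim0]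
    unfold ent
    simp only [hc, integral_const, probReal_univ, one_smul]
    simp
  | succ k ih =>
    intro ν hν G hG m M hm hb
    set ν' : Fin k → Measure ℝ := fun j => ν j.succ with hν'
    have hν'p : ∀ j, IsProbabilityMeasure (ν' j) := fun j => hν _
    have he : MeasurePreserving (MeasurableEquiv.piFinSuccAbove (fun _ => ℝ) 0) (Measure.pi ν)
        ((ν 0).prod (Measure.pi ν')) := by
      simpa [hν', Fin.zero_succAbove] using measurePreserving_piFinSuccAbove ν 0
    have hsymm : MeasurePreserving (fun p : ℝ × (Fin k → ℝ) => Fin.cons p.1 p.2)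
        ((ν 0).prod (Measure.pi ν')) (Measure.pi ν) := by
      have h1 := he.symm
      convert h1 using 1
      funext p
      simp [MeasurableEquiv.piFinSuccAbove]; rfl
    have key : ∀ H : (Fin (k + 1) → ℝ) → ℝ,
        ∫ z, H z ∂(Measure.pi ν) = ∫ p, H (Fin.cons p.1 p.2) ∂((ν 0).prod (Measure.pi ν')) := by
      intro H
      have hem : MeasurableEmbedding (fun p : ℝ × (Fin k → ℝ) => (Fin.cons p.1 p.2 : Fin (k + 1) → ℝ)) := by
        have := (MeasurableEquiv.piFinSuccAbove (fun _ : Fin (k + 1) => ℝ) 0).symm.measurableEmbedding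
        convert this using 1
        funext p
        simp [MeasurableEquiv.piFinSuccAbove]; rfl
      exact (hsymm.integral_comp hem H).symm
    set G2 : ℝ × (Fin k → ℝ) → ℝ := fun p => G (Fin.cons p.1 p.2) with hG2
    have hG2m : Measurable G2 := hG.comp hsymm.measurable
    have hentG : ent (Measure.pi ν) G = ent ((ν 0).prod (Measure.pi ν')) G2 := by
      unfold ent; simp only [key, hG2]
    have hupd : ∀ i : Fin (k + 1), Measurable (fun q : (Fin (k + 1) → ℝ) × ℝ => update q.1 i q.2) :=
      fun i => measurable_update'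
    have hEm : ∀ i : Fin (k + 1), Measurable (fun z => ent (ν i) (fun t => G (update z i t))) := by
      intro i
      have h := hG.comp (hupd i)
      exact ((h.mul h.log).stronglyMeasurable.integral_prod_right'.measurable).sub
        ((h.stronglyMeasurable.integral_prod_right'.measurable).mul
          (h.stronglyMeasurable.integral_prod_right'.measurable).log)
    have hEb : ∀ (i : Fin (k + 1)) z, |ent (ν i) (fun t => G (update z i t))|
        ≤ 2 * (M * (|Real.log m| + |Real.log M|)) := by
      intro i z
      exact abs_ent_le (hG.comp ((hupd i).comp measurable_prodMk_left)) hm (fun t => hb _)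
    have hEi : ∀ i : Fin (k + 1), Integrable
        (fun p : ℝ × (Fin k → ℝ) => ent (ν i) (fun t => G (update (Fin.cons p.1 p.2) i t)))
        ((ν 0).prod (Measure.pi ν')) := fun i =>
      integrable_of_bdd ((hEm i).comp hsymm.measurable) (fun p => hEb i _)
    rw [hentG, ent_prod hG2m hm (fun p => hb _), Fin.sum_univ_succ]
    apply add_le_add
    · rw [key, integral_prod_symm _ (hEi 0)]
      simp only [Fin.update_cons_zero, integral_const, probReal_univ, one_smul]
      rfl
    · set g := fun w => ∫ a, G2 (a, w) ∂(ν 0) with hg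
      have hgm : Measurable g := (hG2m.stronglyMeasurable.integral_prod_left').measurable
      refine (ih ν' hν'p g hgm m M hm (fun w =>
        integral_mem (hG2m.comp measurable_prodMk_right) hm (fun a => hb _))).trans ?_
      refine Finset.sum_le_sum (fun j _ => ?_)
      rw [key, integral_prod_symm _ (hEi j.succ)]
      have hu : Measurable (fun q : (Fin k → ℝ) × ℝ => update q.1 j q.2) := measurable_update'
      refine integral_mono ?_ (hEi j.succ).integral_prod_right (fun w => ?_)
      · refine integrable_of_bdd ?_ (B := 2 * (M * (|Real.log m| + |Real.log M|))) (fun w => ?_)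
        · have h := hgm.comp hu
          exact ((h.mul h.log).stronglyMeasurable.integral_prod_right'.measurable).sub
            ((h.stronglyMeasurable.integral_prod_right'.measurable).mul
              (h.stronglyMeasurable.integral_prod_right'.measurable).log)
        · have hgb : ∀ v, m ≤ g v ∧ g v ≤ M := fun v =>
            integral_mem (hG2m.comp measurable_prodMk_right) hm (fun a => hb _)
          exact abs_ent_le (hgm.comp (hu.comp measurable_prodMk_left)) hm (fun t => hgb _)
      · show ent (ν' j) (fun t => g (update w j t)) ≤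
          ∫ a, ent (ν j.succ) (fun t => G (update (Fin.cons a w) j.succ t)) ∂(ν 0)
        have hm2 : Measurable (fun q : ℝ × ℝ => G2 (q.1, update w j q.2)) :=
          hG2m.comp (measurable_fst.prodMk ((hu.comp measurable_prodMk_left).comp measurable_snd))
        have := ent_average_le (μ := ν 0) (κ := ν' j) hm2 hm (fun q => hb _)
        simp only [hG2, Fin.cons_update] at this
        simp only [hg, hG2, hν', Fin.cons_update] at this ⊢
        exact this

end Vale.Agent.P245
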