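import Vale.Agent.P245.OneDim
import Vale.Agent.P245.Tensor
import Mathlib.Analysis.InnerProductSpace.Dual
import Mathlib.MeasureTheory.Integral.Pi
import Mathlib.Analysis.InnerProductSpace.PiL2
import Mathlib.Analysis.Calculus.ContDiff.Basic
import Mathlib.Analysis.Calculus.FDeriv.Mul
import Mathlib.Analysis.Convex.SpecificFunctions.Basic

/-! Log-Sobolev inequality for affine images of products of log-concave laws. -/

namespace Vale.Agent.P245

open MeasureTheory Set Function Filter Topology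

theorem one_dim_bounded {ν : Measure ℝ} [IsProbabilityMeasure ν] (c : Chart ν)
    {g g' : ℝ → ℝ} {m M D : ℝ} (hm : 0 < m) (hb : ∀ x, m ≤ g x ∧ g x ≤ M)
    (hg : ∀ x, HasDerivAt g (g' x) x) (hg'c : Continuous g') (hg'b : ∀ x, |g' x| ≤ D)
    (hexpI : ∀ x, Integrable (fun t => Real.exp (K0 * (g' x / g x) * t)) ν ∧
      Integrable (fun t => Real.exp (-(K0 * (g' x / g x)) * t)) ν)
    {h : ℝ → ℝ} (hhm : Measurable h) {B : ℝ} (hhb : ∀ x, |h x| ≤ B)
    (hh : ∀ x, lam ν (K0 * (g' x / g x)) ≤ h x) :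
    ent ν g ≤ 2 / K0 * ∫ x, h x * g x ∂ν := by
  have hgc : Continuous g := continuous_iff_continuousAt.mpr fun x => (hg x).continuousAt
  obtain ⟨hZ1, hZ2⟩ := integral_mem (μ := ν) hgc.measurable hm hb
  set Z := ∫ x, g x ∂ν with hZ
  have hZ0 : 0 < Z := hm.trans_le hZ1
  have hgpos : ∀ x, 0 < g x := fun x => hm.trans_le (hb x).1
  set F := fun x => Real.log (g x) - Real.log Z with hF
  have hexpF : ∀ x, Real.exp (F x) = g x / Z := fun x => by
    simp only [hF]; rw [Real.exp_sub, Real.exp_log (hgpos x), Real.exp_log hZ0]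
  set N := 2 * (|Real.log m| + |Real.log M|) + |D| / m + 1 with hN
  have hpos : 0 ≤ |D| / m := by positivity
  have hnorm : ∫ x, Real.exp (F x) ∂ν = 1 := by
    simp only [hexpF]; rw [integral_div, ← hZ, div_self hZ0.ne']
  have key := one_dim_normalized c (F := F) (F' := fun x => g' x / g x) (M := N)
    (fun x => HasDerivAt.sub_const _ ((hg x).log (hgpos x).ne'))
    (hg'c.div hgc (fun x => (hgpos x).ne'))
    (fun x => by
      refine (abs_sub _ _).trans ?_
      linarith [abs_log_le hm (hb x).1 (hb x).2, abs_log_le hm hZ1 hZ2, hpos])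
    (fun x => by
      rw [abs_div, abs_of_pos (hgpos x)]
      have : |g' x| / g x ≤ |D| / m :=
        div_le_div₀ (abs_nonneg _) ((hg'b x).trans (le_abs_self _)) hm (hb x).1
      linarith [abs_nonneg (Real.log m), abs_nonneg (Real.log M)])
    hnorm hexpI hhm hhb hh
  simp only [hexpF] at key
  have i1 : Integrable (fun x => g x * Real.log (g x)) ν :=
    integrable_of_bdd (hgc.measurable.mul hgc.measurable.log)
      (fun x => abs_mul_log_le hm (hb x).1 (hb x).2)
  have i2 : Integrable g ν := integrable_of_bdd hgc.measurable (B := M) (fun x => by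
    rw [abs_of_pos (hgpos x)]; exact (hb x).2)
  have e1 : ∫ x, F x * (g x / Z) ∂ν = ent ν g / Z := by
    have : (fun x => F x * (g x / Z))
        = fun x => (g x * Real.log (g x) - g x * Real.log Z) / Z := by
      funext x; simp only [hF]; ring
    rw [this, integral_div, integral_sub i1 (i2.mul_const _), integral_mul_const]
    rfl
  have e2 : ∫ x, h x * (g x / Z) ∂ν = (∫ x, h x * g x ∂ν) / Z := by
    rw [← integral_div]; exact integral_congr_ae (Eventually.of_forall fun x => by ring)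
  rw [e1, e2, mul_div_assoc', div_le_div_iff_of_pos_right hZ0] at key
  exact key

lemma measurable_lam (ν : Measure ℝ) [SFinite ν] : Measurable (lam ν) := by
  have h1 : Continuous (fun p : ℝ × ℝ => Real.exp (p.1 * p.2)) := by fun_prop
  have h2 : Continuous (fun p : ℝ × ℝ => Real.exp (-p.1 * p.2)) := by fun_prop
  exact ((h1.stronglyMeasurable.integral_prod_right').measurable.mul
    (h2.stronglyMeasurable.integral_prod_right').measurable).log

lemma Chart.one_le_mgf {ν : Measure ℝ} [IsProbabilityMeasure ν] (c : Chart ν) {t : ℝ}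
    (hp : Integrable (fun x => Real.exp (t * x)) ν)
    (hm : Integrable (fun x => Real.exp (-t * x)) ν) :
    1 ≤ (∫ x, Real.exp (t * x) ∂ν) * ∫ x, Real.exp (-t * x) ∂ν := by
  refine le_trans ?_ (c.mgf_cosh hp hm)
  linarith [Real.one_le_cosh (t * (c.φ' 0 / 4))]

section subgaussian

variable {Ω : Type*} [MeasurableSpace Ω] {P : Measure Ω} [IsProbabilityMeasure P]

omit [IsProbabilityMeasure P] in
lemma sq_exp_le {X : Ω → ℝ} (hX : Measurable X) {a : ℝ}
    (h : ∫⁻ w, ENNReal.ofReal (Real.exp (X w ^ 2 / a ^ 2)) ∂P ≤ 2) :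
    Integrable (fun w => Real.exp (X w ^ 2 / a ^ 2)) P ∧
      ∫ w, Real.exp (X w ^ 2 / a ^ 2) ∂P ≤ 2 := by
  have hm : Measurable (fun w => Real.exp (X w ^ 2 / a ^ 2)) := ((hX.pow_const 2).div_const _).exp
  have hnn : 0 ≤ᵐ[P] fun w => Real.exp (X w ^ 2 / a ^ 2) :=
    Eventually.of_forall fun w => (Real.exp_pos _).le
  refine ⟨⟨hm.aestronglyMeasurable, ?_⟩, ?_⟩
  · rw [hasFiniteIntegral_iff_ofReal hnn]
    exact lt_of_le_of_lt h (by simp)
  · rw [integral_eq_lintegral_of_nonneg_ae hnn hm.aestronglyMeasurable]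
    exact ENNReal.toReal_le_of_le_ofReal (by norm_num) (h.trans (by simp))

lemma integrable_exp_of_subgaussian {X : Ω → ℝ} (hX : Measurable X) {a : ℝ} (ha : 0 < a)
    (h : ∫⁻ w, ENNReal.ofReal (Real.exp (X w ^ 2 / a ^ 2)) ∂P ≤ 2) (t : ℝ) :
    Integrable (fun w => Real.exp (t * X w)) P ∧
      ∫ w, Real.exp (t * X w) ∂P ≤ 2 * Real.exp (t ^ 2 * a ^ 2 / 4) := by
  obtain ⟨hi, hle⟩ := sq_exp_le hX h
  have hpt : ∀ w, Real.exp (t * X w)
      ≤ Real.exp (t ^ 2 * a ^ 2 / 4) * Real.exp (X w ^ 2 / a ^ 2) := fun w => by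
    rw [← Real.exp_add, Real.exp_le_exp]
    have := sq_nonneg (t * a / 2 - X w / a)
    have e : 2 * (t * a / 2) * (X w / a) = t * X w := by field_simp
    have e2 : (X w / a) ^ 2 = X w ^ 2 / a ^ 2 := div_pow _ _ _
    nlinarith
  have hint : Integrable (fun w => Real.exp (t * X w)) P :=
    Integrable.mono' (hi.const_mul _) ((hX.const_mul t).exp).aestronglyMeasurable
      (Eventually.of_forall fun w => by
        rw [Real.norm_eq_abs, abs_of_pos (Real.exp_pos _)]; exact hpt w)
  refine ⟨hint, ?_⟩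
  have := integral_mono hint (hi.const_mul _) hpt
  rw [integral_const_mul] at this
  nlinarith [mul_le_mul_of_nonneg_left hle (Real.exp_pos (t ^ 2 * a ^ 2 / 4)).le]

/-- The symmetrised Laplace transform of a subgaussian variable, centred or not. -/
lemma mgf_mul_le {X : Ω → ℝ} (hX : Measurable X) {a : ℝ} (ha : 0 < a)
    (h : ∫⁻ w, ENNReal.ofReal (Real.exp (X w ^ 2 / a ^ 2)) ∂P ≤ 2) (t : ℝ) :
    (∫ w, Real.exp (t * X w) ∂P) * (∫ w, Real.exp (-t * X w) ∂P)
      ≤ Real.exp (2 * t ^ 2 * a ^ 2) := by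
  obtain ⟨hi, hle⟩ := sq_exp_le hX h
  obtain ⟨ip, hp⟩ := integrable_exp_of_subgaussian hX ha h t
  obtain ⟨im, hm⟩ := integrable_exp_of_subgaussian hX ha h (-t)
  set u := t ^ 2 * a ^ 2 with hu
  rcases le_total u 1 with hu1 | hu1
  · have hu0 : 0 ≤ u := by positivity
    set W := fun w => u * Real.exp (X w ^ 2 / a ^ 2) + (1 - u) with hW
    have hWi : Integrable W P := (hi.const_mul u).add (integrable_const _)
    have hW0 : 0 ≤ ∫ w, W w ∂P := integral_nonneg fun w => by
      simp only [hW, Pi.zero_apply]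
      nlinarith [mul_nonneg hu0 (Real.exp_pos (X w ^ 2 / a ^ 2)).le]
    have hWle : ∫ w, W w ∂P ≤ Real.exp u := by
      simp only [hW]
      rw [integral_add (hi.const_mul u) (integrable_const _), integral_const_mul, integral_const,
        probReal_univ, one_smul]
      nlinarith [Real.add_one_le_exp u]
    have hWpt : ∀ w, Real.exp (t ^ 2 * X w ^ 2) ≤ W w := fun w => by
      have h1 := convexOn_exp.2 (mem_univ (X w ^ 2 / a ^ 2)) (mem_univ (0:ℝ)) hu0
        (sub_nonneg.mpr hu1) (by ring)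
      simp only [smul_eq_mul, mul_zero, add_zero, Real.exp_zero, mul_one] at h1
      have e : u * (X w ^ 2 / a ^ 2) = t ^ 2 * X w ^ 2 := by rw [hu]; field_simp
      rw [e] at h1
      exact h1
    have hpair : ∀ v w, (Real.exp (t * X v) * Real.exp (-t * X w)
        + Real.exp (-t * X v) * Real.exp (t * X w)) / 2 ≤ W v * W w := fun v w => by
      have e : (Real.exp (t * X v) * Real.exp (-t * X w)
          + Real.exp (-t * X v) * Real.exp (t * X w)) / 2 = Real.cosh (t * (X v - X w)) := by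
        rw [Real.cosh_eq, ← Real.exp_add, ← Real.exp_add]; ring_nf
      rw [e]
      calc Real.cosh (t * (X v - X w)) ≤ Real.exp ((t * (X v - X w)) ^ 2 / 2) :=
            Real.cosh_le_exp_half_sq _
        _ ≤ Real.exp (t ^ 2 * X v ^ 2) * Real.exp (t ^ 2 * X w ^ 2) := by
            rw [← Real.exp_add, Real.exp_le_exp]
            nlinarith [sq_nonneg (t * X v + t * X w)]
        _ ≤ W v * W w := mul_le_mul (hWpt v) (hWpt w) (Real.exp_pos _).le
            ((Real.exp_pos _).le.trans (hWpt v))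
    set A := ∫ w, Real.exp (t * X w) ∂P with hA
    set B := ∫ w, Real.exp (-t * X w) ∂P with hB
    have hin : ∀ v, (Real.exp (t * X v) * B + Real.exp (-t * X v) * A) / 2
        ≤ W v * ∫ w, W w ∂P := fun v => by
      have := integral_mono (((im.const_mul _).add (ip.const_mul _)).div_const 2)
        (hWi.const_mul (W v)) (hpair v)
      simp only [Pi.add_apply] at this
      rw [integral_div, integral_add (im.const_mul _) (ip.const_mul _), integral_const_mul,
        integral_const_mul, integral_const_mul] at this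
      exact this
    have := integral_mono (((ip.mul_const B).add (im.mul_const A)).div_const 2)
      (hWi.mul_const _) hin
    simp only [Pi.add_apply] at this
    rw [integral_div, integral_add (ip.mul_const B) (im.mul_const A), integral_mul_const,
      integral_mul_const, integral_mul_const] at this
    calc A * B ≤ (∫ w, W w ∂P) * ∫ w, W w ∂P := by linarith
      _ ≤ Real.exp u * Real.exp u := mul_le_mul hWle hWle hW0 (Real.exp_pos _).le
      _ = _ := by rw [← Real.exp_add, hu]; ring_nf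
  · calc _ ≤ (2 * Real.exp (t ^ 2 * a ^ 2 / 4)) * (2 * Real.exp ((-t) ^ 2 * a ^ 2 / 4)) :=
          mul_le_mul hp hm (integral_nonneg fun w => (Real.exp_pos _).le) (by positivity)
      _ = 4 * Real.exp (u / 2) := by
          rw [neg_sq, hu, show t ^ 2 * a ^ 2 / 2 = t ^ 2 * a ^ 2 / 4 + t ^ 2 * a ^ 2 / 4 by ring,
            Real.exp_add]
          ring
      _ ≤ Real.exp (3 / 2) * Real.exp (u / 2) := by
          refine mul_le_mul_of_nonneg_right ?_ (Real.exp_pos _).le
          rw [← Real.log_le_iff_le_exp (by norm_num)]; exact log_four_le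
      _ ≤ _ := by rw [← Real.exp_add, Real.exp_le_exp]; linarith

end subgaussian

/-- The constant in the inequality. -/
noncomputable def CLS : ℝ := 16 * K0

variable {n k : ℕ}

theorem lsi_images (ν : Fin k → Measure ℝ) [∀ i, IsProbabilityMeasure (ν i)]
    (c : ∀ i, Chart (ν i)) (L : (Fin k → ℝ) →L[ℝ] EuclideanSpace ℝ (Fin n))
    (b : EuclideanSpace ℝ (Fin n)) {a : ℝ} (ha : 0 < a)
    (hsub : ∀ θ : EuclideanSpace ℝ (Fin n), ‖θ‖ = 1 →
      ∫⁻ z, ENNReal.ofReal (Real.exp (inner ℝ θ (b + L z) ^ 2 / a ^ 2)) ∂(Measure.pi ν) ≤ 2)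
    {f : EuclideanSpace ℝ (Fin n) → ℝ} (hf : ContDiff ℝ 1 f) (hfs : HasCompactSupport f) :
    ent (Measure.pi ν) (fun z => f (b + L z) ^ 2)
      ≤ CLS * a ^ 2 * ∫ z, ‖fderiv ℝ f (b + L z)‖ ^ 2 ∂(Measure.pi ν) := by
  classical
  set P := Measure.pi ν with hP
  set T := fun z : Fin k → ℝ => b + L z with hT
  have hTc : Continuous T := continuous_const.add L.continuous
  -- exponential moments of all functionals
  have hfun : ∀ ℓ : StrongDual ℝ (EuclideanSpace ℝ (Fin n)),
      Integrable (fun z => Real.exp (ℓ (T z))) P ∧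
      (∫ z, Real.exp (ℓ (T z)) ∂P) * (∫ z, Real.exp (-(ℓ (T z))) ∂P)
        ≤ Real.exp (2 * ‖ℓ‖ ^ 2 * a ^ 2) := by
    intro ℓ
    set v := (InnerProductSpace.toDual ℝ (EuclideanSpace ℝ (Fin n))).symm ℓ with hv
    have hℓ : ∀ x, inner ℝ v x = ℓ x := fun x => InnerProductSpace.toDual_symm_apply
    have hn : ‖v‖ = ‖ℓ‖ := by simp [hv]
    by_cases h0 : v = 0
    · have : ∀ x, ℓ x = 0 := fun x => by rw [← hℓ, h0, inner_zero_left]
      simp [this]
      positivity
    · set θ := ‖v‖⁻¹ • v with hθ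
      have hθ1 : ‖θ‖ = 1 := norm_smul_inv_norm h0
      have hX : Measurable (fun z => inner ℝ θ (T z)) := (continuous_const.inner hTc).measurable
      have he : ∀ z, ℓ (T z) = ‖v‖ * inner ℝ θ (T z) := fun z => by
        rw [hθ, real_inner_smul_left, hℓ, ← mul_assoc, mul_inv_cancel₀ (norm_ne_zero_iff.mpr h0),
          one_mul]
      refine ⟨?_, ?_⟩
      · simp only [he]; exact (integrable_exp_of_subgaussian hX ha (hsub θ hθ1) ‖v‖).1
      · simp only [he, ← neg_mul]
        have := mgf_mul_le (P := P) hX ha (hsub θ hθ1) ‖v‖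
        rwa [hn] at this ⊢
  set e := fun i : Fin k => L (Pi.single i (1:ℝ)) with he
  have hLsum : ∀ z, L z = ∑ i, z i • e i := fun z => by
    conv_lhs => rw [pi_eq_sum_univ' z]
    simp [map_sum, he]
  have hsplit : ∀ (ℓ : StrongDual ℝ (EuclideanSpace ℝ (Fin n))) z,
      Real.exp (ℓ (T z)) = Real.exp (ℓ b) * ∏ i, Real.exp (ℓ (e i) * z i) := fun ℓ z => by
    rw [← Real.exp_sum, ← Real.exp_add]
    simp [hT, hLsum, map_sum, mul_comm]
  have hprod : ∀ ℓ : StrongDual ℝ (EuclideanSpace ℝ (Fin n)), ∫ z, Real.exp (ℓ (T z)) ∂P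
      = Real.exp (ℓ b) * ∏ i, ∫ x, Real.exp (ℓ (e i) * x) ∂(ν i) := fun ℓ => by
    simp only [hsplit, hP]
    rw [integral_const_mul,
      integral_fintype_prod_eq_prod (𝕜 := ℝ) (fun i x => Real.exp (ℓ (e i) * x))]
  have hmarg : ∀ (ℓ : StrongDual ℝ (EuclideanSpace ℝ (Fin n))) (i : Fin k),
      Integrable (fun x => Real.exp (ℓ (e i) * x)) (ν i) := by
    intro ℓ i
    by_contra hni
    have h1 : 0 < ∫ z, Real.exp (ℓ (T z)) ∂P := integral_exp_pos (hfun ℓ).1
    rw [hprod ℓ, Finset.prod_eq_zero (Finset.mem_univ i) (integral_undef hni), mul_zero] at h1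
    exact lt_irrefl _ h1
  set Λ := fun (i : Fin k) (ℓ : StrongDual ℝ (EuclideanSpace ℝ (Fin n))) => lam (ν i) (K0 * ℓ (e i))
    with hΛ
  have hint2 : ∀ i (ℓ : StrongDual ℝ (EuclideanSpace ℝ (Fin n))),
      Integrable (fun t => Real.exp (K0 * ℓ (e i) * t)) (ν i) ∧
      Integrable (fun t => Real.exp (-(K0 * ℓ (e i)) * t)) (ν i) := fun i ℓ =>
    ⟨by simpa using hmarg (K0 • ℓ) i, by simpa [neg_mul] using hmarg (-(K0 • ℓ)) i⟩
  have hΛ0 : ∀ i ℓ, 0 ≤ Λ i ℓ := fun i ℓ =>
    Real.log_nonneg ((c i).one_le_mgf (hint2 i ℓ).1 (hint2 i ℓ).2)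
  have hΛsum : ∀ ℓ, ∑ i, Λ i ℓ ≤ 2 * K0 ^ 2 * a ^ 2 * ‖ℓ‖ ^ 2 := by
    intro ℓ
    have h1 := (hfun (K0 • ℓ)).2
    have e1 : ∀ z, -((K0 • ℓ) (T z)) = (-(K0 • ℓ)) (T z) := fun z => rfl
    simp only [e1] at h1
    rw [hprod, hprod] at h1
    have hne : ∀ (ℓ' : StrongDual ℝ (EuclideanSpace ℝ (Fin n))) i,
        (∫ x, Real.exp (ℓ' (e i) * x) ∂(ν i)) ≠ 0 := fun ℓ' i => (integral_exp_pos (hmarg ℓ' i)).ne'
    have hb' : Real.exp ((K0 • ℓ) b) * Real.exp ((-(K0 • ℓ)) b) = 1 := by
      rw [← Real.exp_add]; simp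
    have h2 : ∏ i, ((∫ x, Real.exp ((K0 • ℓ) (e i) * x) ∂(ν i)) *
        ∫ x, Real.exp ((-(K0 • ℓ)) (e i) * x) ∂(ν i)) ≤ Real.exp (2 * ‖K0 • ℓ‖ ^ 2 * a ^ 2) := by
      rw [Finset.prod_mul_distrib]
      refine le_trans (le_of_eq ?_) h1
      calc _ = (Real.exp ((K0 • ℓ) b) * Real.exp ((-(K0 • ℓ)) b)) *
            ((∏ i, ∫ x, Real.exp ((K0 • ℓ) (e i) * x) ∂(ν i)) *
              ∏ i, ∫ x, Real.exp ((-(K0 • ℓ)) (e i) * x) ∂(ν i)) := by rw [hb', one_mul]
        _ = _ := by ring
    have h3 := Real.log_le_log (Finset.prod_pos fun i _ =>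
      mul_pos (integral_exp_pos (hmarg _ i)) (integral_exp_pos (hmarg _ i))) h2
    rw [Real.log_prod (fun i _ => mul_ne_zero (hne _ i) (hne _ i)), Real.log_exp] at h3
    refine le_trans (le_of_eq ?_) (h3.trans (le_of_eq ?_))
    · refine Finset.sum_congr rfl (fun i _ => ?_)
      simp [hΛ, lam]
    · rw [norm_smul, Real.norm_eq_abs, mul_pow, sq_abs]; ring
  -- bounds on `f`
  have hfc : Continuous f := hf.continuous
  have hDc : Continuous (fderiv ℝ f) := hf.continuous_fderiv one_ne_zero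
  obtain ⟨B₀, hB₀⟩ := hfs.exists_bound_of_continuous hfc
  obtain ⟨D₀, hD₀⟩ := (hfs.fderiv ℝ).exists_bound_of_continuous hDc
  set B := max B₀ 0 with hBdef
  set D := max D₀ 0 with hDdef
  have hBf : ∀ x, |f x| ≤ B := fun x => (hB₀ x).trans (le_max_left _ _)
  have hDf : ∀ x, ‖fderiv ℝ f x‖ ≤ D := fun x => (hD₀ x).trans (le_max_left _ _)
  have hB0 : 0 ≤ B := le_max_right _ _
  have hD0 : 0 ≤ D := le_max_right _ _
  have hf2 : ∀ x, f x ^ 2 ≤ B ^ 2 := fun x => by
    rw [← sq_abs]; exact pow_le_pow_left₀ (abs_nonneg _) (hBf x) 2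
  have hDTi : Integrable (fun z => ‖fderiv ℝ f (T z)‖ ^ 2) P :=
    integrable_of_bdd ((hDc.norm.comp hTc).pow 2).measurable (B := D ^ 2) (fun z => by
      rw [abs_of_nonneg (by positivity)]; exact pow_le_pow_left₀ (norm_nonneg _) (hDf _) 2)
  have main : ∀ ε : ℝ, 0 < ε → ent P (fun z => f (T z) ^ 2 + ε)
      ≤ CLS * a ^ 2 * ∫ z, ‖fderiv ℝ f (T z)‖ ^ 2 ∂P := by
    intro ε hε
    set ℓ := fun x => (2 * f x / (f x ^ 2 + ε)) • fderiv ℝ f x with hℓ
    have hden : ∀ x, 0 < f x ^ 2 + ε := fun x => by positivity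
    have hℓc : Continuous ℓ :=
      ((continuous_const.mul hfc).div ((hfc.pow 2).add continuous_const)
        (fun x => (hden x).ne')).smul hDc
    have hℓb : ∀ x, (f x ^ 2 + ε) * ‖ℓ x‖ ^ 2 ≤ 4 * ‖fderiv ℝ f x‖ ^ 2 := fun x => by
      simp only [hℓ]
      rw [norm_smul, Real.norm_eq_abs, mul_pow, sq_abs, div_pow]
      have : (f x ^ 2 + ε) * ((2 * f x) ^ 2 / (f x ^ 2 + ε) ^ 2)
          = 4 * (f x ^ 2 / (f x ^ 2 + ε)) := by
        field_simp [(hden x).ne']; ring
      rw [← mul_assoc, this]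
      have h1 : f x ^ 2 / (f x ^ 2 + ε) ≤ 1 := (div_le_one (hden x)).mpr (by linarith)
      nlinarith [mul_le_mul_of_nonneg_right h1 (sq_nonneg ‖fderiv ℝ f x‖)]
    set M := B ^ 2 + ε with hM
    set G := fun z => f (T z) ^ 2 + ε with hG
    have hGc : Continuous G := ((hfc.comp hTc).pow 2).add continuous_const
    have hGb : ∀ z, ε ≤ G z ∧ G z ≤ M := fun z =>
      ⟨le_add_of_nonneg_left (sq_nonneg _), by simp only [hG, hM]; linarith [hf2 (T z)]⟩
    have hℓsq : ∀ x, ‖ℓ x‖ ^ 2 ≤ 4 * D ^ 2 / ε := fun x => by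
      rw [le_div_iff₀ hε]
      have h1 := hℓb x
      have h2 : ‖fderiv ℝ f x‖ ^ 2 ≤ D ^ 2 := pow_le_pow_left₀ (norm_nonneg _) (hDf x) 2
      nlinarith [mul_nonneg (sq_nonneg (f x)) (sq_nonneg ‖ℓ x‖)]
    set HB := 2 * K0 ^ 2 * a ^ 2 * (4 * D ^ 2 / ε) with hHB
    set H := fun i z => Λ i (ℓ (T z)) with hH
    have hHm : ∀ i, Measurable (H i) := fun i =>
      (measurable_lam (ν i)).comp (continuous_const.mul
        (((ContinuousLinearMap.apply ℝ ℝ (e i)).continuous).comp (hℓc.comp hTc))).measurable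
    have hHb : ∀ i z, |H i z| ≤ HB := fun i z => by
      simp only [hH]
      rw [abs_of_nonneg (hΛ0 _ _)]
      calc Λ i (ℓ (T z)) ≤ ∑ j, Λ j (ℓ (T z)) :=
            Finset.single_le_sum (fun j _ => hΛ0 j _) (Finset.mem_univ i)
        _ ≤ 2 * K0 ^ 2 * a ^ 2 * ‖ℓ (T z)‖ ^ 2 := hΛsum _
        _ ≤ HB := mul_le_mul_of_nonneg_left (hℓsq _) (by positivity)
    have hslice : ∀ i z, ent (ν i) (fun t => G (update z i t))
        ≤ 2 / K0 * ∫ t, H i (update z i t) * G (update z i t) ∂(ν i) := by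
      intro i z
      have hTd : ∀ t, HasDerivAt (fun t => T (update z i t)) (e i) t := fun t => by
        have e1 : (fun t => T (update z i t)) = fun t => T z + (t - z i) • e i := by
          funext s
          have : update z i s = z + (s - z i) • Pi.single i (1:ℝ) := by
            funext j
            rcases eq_or_ne j i with rfl | hj
            · simp
            · simp [hj]
          simp only [hT, he, this, map_add, map_smul, add_assoc]
        rw [e1]
        have h2 := HasDerivAt.smul_const ((hasDerivAt_id' t).sub_const (z i)) (e i)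
        rw [one_smul] at h2
        exact HasDerivAt.const_add (T z) h2
      have hTuc : Continuous (fun t => T (update z i t)) :=
        continuous_iff_continuousAt.mpr fun t => (hTd t).continuousAt
      have hd : ∀ t, HasDerivAt (fun t => G (update z i t))
          (2 * f (T (update z i t)) * fderiv ℝ f (T (update z i t)) (e i)) t := fun t => by
        have h1 : HasDerivAt (fun t => f (T (update z i t))) (fderiv ℝ f (T (update z i t)) (e i)) t :=
          ((hf.differentiable one_ne_zero) (T (update z i t))).hasFDerivAt.comp_hasDerivAt t (hTd t)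
        refine ((h1.pow 2).add_const ε).congr_deriv ?_
        simp
      have hquot : ∀ t, 2 * f (T (update z i t)) * fderiv ℝ f (T (update z i t)) (e i)
          / G (update z i t) = ℓ (T (update z i t)) (e i) := fun t => by
        simp only [hℓ, hG, smul_apply, smul_eq_mul]
        ring
      refine one_dim_bounded (c i) hε (fun t => hGb _) hd ?_
        (D := 2 * B * (D * ‖e i‖)) ?_ ?_ ((hHm i).comp (measurable_update z)) (fun t => hHb i _) ?_
      · exact (continuous_const.mul (hfc.comp hTuc)).mul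
          (((ContinuousLinearMap.apply ℝ ℝ (e i)).continuous).comp (hDc.comp hTuc))
      · intro t
        rw [abs_mul, abs_mul, abs_two]
        refine mul_le_mul (mul_le_mul_of_nonneg_left (hBf _) two_pos.le) ?_ (abs_nonneg _)
          (by positivity)
        exact ((fderiv ℝ f _).le_opNorm _).trans
          (mul_le_mul_of_nonneg_right (hDf _) (norm_nonneg _))
      · intro t; rw [hquot]; exact hint2 i _
      · intro t; rw [hquot]
    have hHGb : ∀ i z, |H i z * G z| ≤ HB * M := fun i z => by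
      rw [abs_mul, abs_of_pos (hε.trans_le (hGb z).1)]
      exact mul_le_mul (hHb i z) (hGb z).2 (hε.trans_le (hGb z).1).le
        ((abs_nonneg _).trans (hHb i z))
    have hHGi : ∀ i, Integrable (fun z => H i z * G z) P := fun i =>
      integrable_of_bdd ((hHm i).mul hGc.measurable) (hHGb i)
    have hsl : ∀ i, ∫ z, ent (ν i) (fun t => G (update z i t)) ∂P
        ≤ 2 / K0 * ∫ z, H i z * G z ∂P := fun i => by
      have hmp := measurePreserving_update ν i
      have hK : Measurable (fun q : (Fin k → ℝ) × ℝ => H i (update q.1 i q.2) * G (update q.1 i q.2)) :=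
        ((hHm i).mul hGc.measurable).comp hmp.measurable
      have hKi : Integrable (fun q : (Fin k → ℝ) × ℝ => H i (update q.1 i q.2) * G (update q.1 i q.2))
          (P.prod (ν i)) := integrable_of_bdd hK (fun q => hHGb i _)
      have e1 : ∫ z, H i z * G z ∂P
          = ∫ z, ∫ t, H i (update z i t) * G (update z i t) ∂(ν i) ∂P := by
        rw [← integral_prod _ hKi]
        conv_lhs => rw [hP, ← hmp.map_eq]
        have hfm : AEStronglyMeasurable (fun z => H i z * G z)
            (Measure.map (fun p : (Fin k → ℝ) × ℝ => update p.1 i p.2) ((Measure.pi ν).prod (ν i))) :=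
          ((hHm i).mul hGc.measurable).aestronglyMeasurable
        rw [integral_map hmp.measurable.aemeasurable hfm]
      rw [e1, ← integral_const_mul]
      have hem : Measurable (fun z => ent (ν i) (fun t => G (update z i t))) := by
        have h := hGc.measurable.comp hmp.measurable
        exact ((h.mul h.log).stronglyMeasurable.integral_prod_right'.measurable).sub
          ((h.stronglyMeasurable.integral_prod_right'.measurable).mul
            (h.stronglyMeasurable.integral_prod_right'.measurable).log)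
      exact integral_mono (integrable_of_bdd hem (fun z => abs_ent_le
        (hGc.measurable.comp (measurable_update z)) hε (fun t => hGb _)))
        (hKi.integral_prod_left.const_mul _) (hslice i)
    calc ent P G ≤ ∑ i, ∫ z, ent (ν i) (fun t => G (update z i t)) ∂P :=
          ent_pi_le k ν inferInstance G hGc.measurable ε M hε hGb
      _ ≤ ∑ i, 2 / K0 * ∫ z, H i z * G z ∂P := Finset.sum_le_sum (fun i _ => hsl i)
      _ = 2 / K0 * ∫ z, ∑ i, H i z * G z ∂P := by
          rw [← Finset.mul_sum, ← integral_finsetSum _ (fun i _ => hHGi i)]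
      _ ≤ 2 / K0 * ∫ z, 8 * K0 ^ 2 * a ^ 2 * ‖fderiv ℝ f (T z)‖ ^ 2 ∂P := by
          refine mul_le_mul_of_nonneg_left (integral_mono (integrable_finsetSum _ (fun i _ => hHGi i))
            (hDTi.const_mul _) (fun z => ?_)) (by have := K0_pos; positivity)
          rw [← Finset.sum_mul]
          calc (∑ i, H i z) * G z ≤ 2 * K0 ^ 2 * a ^ 2 * ‖ℓ (T z)‖ ^ 2 * G z :=
                mul_le_mul_of_nonneg_right (hΛsum _) (hε.trans_le (hGb z).1).le
            _ = 2 * K0 ^ 2 * a ^ 2 * ((f (T z) ^ 2 + ε) * ‖ℓ (T z)‖ ^ 2) := by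
                simp only [hG]; ring
            _ ≤ 2 * K0 ^ 2 * a ^ 2 * (4 * ‖fderiv ℝ f (T z)‖ ^ 2) :=
                mul_le_mul_of_nonneg_left (hℓb _) (by positivity)
            _ = _ := by ring
      _ = CLS * a ^ 2 * ∫ z, ‖fderiv ℝ f (T z)‖ ^ 2 ∂P := by
          rw [integral_const_mul, CLS]
          field_simp [K0_pos.ne']
          ring
  -- let the regularisation tend to zero
  set εs := fun m : ℕ => 1 / ((m:ℝ) + 1) with hεs
  have hεt : Tendsto εs atTop (𝓝 0) := tendsto_one_div_add_atTop_nhds_zero_nat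
  have hεpos : ∀ m, 0 < εs m := fun m => by simp only [hεs]; positivity
  have hεle : ∀ m, εs m ≤ 1 := fun m => by
    simp only [hεs]; rw [div_le_one (by positivity)]; linarith [(Nat.cast_nonneg m : (0:ℝ) ≤ m)]
  have hlim : ∀ φ : ℝ → ℝ, Continuous φ →
      Tendsto (fun m => ∫ z, φ (f (T z) ^ 2 + εs m) ∂P) atTop (𝓝 (∫ z, φ (f (T z) ^ 2) ∂P)) := by
    intro φ hφ
    obtain ⟨K, hK⟩ := (isCompact_Icc (a := (0:ℝ)) (b := B ^ 2 + 1)).exists_bound_of_continuousOn
      hφ.continuousOn
    refine tendsto_integral_of_dominated_convergence (fun _ => K)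
      (fun m => (hφ.comp (((hfc.comp hTc).pow 2).add continuous_const)).aestronglyMeasurable)
      (integrable_const K) (fun m => Eventually.of_forall fun z => ?_)
      (Eventually.of_forall fun z => ?_)
    · exact hK _ ⟨by nlinarith [hεpos m], by linarith [hf2 (T z), hεle m]⟩
    · have h2 := (hεt.const_add (f (T z) ^ 2))
      rw [add_zero] at h2
      exact (hφ.tendsto _).comp h2
  have hml : Continuous (fun x : ℝ => x * Real.log x) := Real.continuous_mul_log
  have hgoal : Tendsto (fun m => ent P (fun z => f (T z) ^ 2 + εs m)) atTop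
      (𝓝 (ent P (fun z => f (T z) ^ 2))) := by
    unfold ent
    exact (hlim _ hml).sub ((hml.tendsto _).comp (hlim _ continuous_id))
  exact le_of_tendsto hgoal (Eventually.of_forall fun m => main _ (hεpos m))

end Vale.Agent.P245
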