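import Mathlib.Analysis.SpecialFunctions.Log.Basic
import Mathlib.Analysis.SpecialFunctions.Sqrt
import Mathlib.Analysis.Complex.Trigonometric
import Mathlib.Analysis.SpecialFunctions.Trigonometric.Series
import Mathlib.Analysis.SpecialFunctions.Trigonometric.DerivHyp
import Mathlib.Analysis.Complex.ExponentialBounds
import Mathlib.Tactic

/-! Elementary real inequalities for the one-dimensional transport argument. -/

namespace Vale.Agent.P245

open Real

/-- The smooth convex cost, quadratic near zero and linear at infinity. -/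
noncomputable def psi (u : ℝ) : ℝ := Real.sqrt (1 + u ^ 2) - 1

/-- Derivative of `psi`. -/
noncomputable def psiD (u : ℝ) : ℝ := u / Real.sqrt (1 + u ^ 2)

lemma psi_nonneg (u : ℝ) : 0 ≤ psi u := by
  have : (1:ℝ) ≤ Real.sqrt (1 + u ^ 2) := Real.one_le_sqrt.mpr (by nlinarith)
  unfold psi; linarith

lemma psi_zero : psi 0 = 0 := by simp [psi]

lemma psi_neg (u : ℝ) : psi (-u) = psi u := by simp [psi]

lemma psi_abs (u : ℝ) : psi |u| = psi u := by simp [psi, sq_abs]

lemma psi_le_abs (u : ℝ) : psi u ≤ |u| := by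
  have : Real.sqrt (1 + u ^ 2) ≤ 1 + |u| := by
    rw [Real.sqrt_le_iff]
    constructor
    · positivity
    · nlinarith [sq_abs u, abs_nonneg u]
  unfold psi; linarith

lemma psi_le_sq (u : ℝ) : psi u ≤ u ^ 2 / 2 := by
  have : Real.sqrt (1 + u ^ 2) ≤ 1 + u ^ 2 / 2 := by
    rw [Real.sqrt_le_iff]
    constructor
    · positivity
    · nlinarith [sq_nonneg (u ^ 2)]
  unfold psi; linarith

lemma psi_mono {u v : ℝ} (h : |u| ≤ |v|) : psi u ≤ psi v := by
  have : u ^ 2 ≤ v ^ 2 := sq_le_sq.mpr h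
  unfold psi
  gcongr

lemma psi_ge {r : ℝ} : r ^ 2 / (|r| + 2) ≤ psi r := by
  set s := Real.sqrt (1 + r ^ 2) with hs
  have h1 : s ^ 2 = 1 + r ^ 2 := Real.sq_sqrt (by positivity)
  have h2 : 1 ≤ s := Real.one_le_sqrt.mpr (by nlinarith)
  have h3 : s ≤ |r| + 1 := by
    rw [hs, Real.sqrt_le_iff]
    constructor
    · positivity
    · nlinarith [sq_abs r, abs_nonneg r]
  rw [div_le_iff₀ (by positivity)]
  show r ^ 2 ≤ (s - 1) * (|r| + 2)
  nlinarith [mul_nonneg (sub_nonneg.mpr h2) (sub_nonneg.mpr h3)]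

lemma psi_two_mul (x : ℝ) : psi (2 * x) ≤ 4 * psi x := by
  set s := Real.sqrt (1 + x ^ 2) with hs
  have h1 : s ^ 2 = 1 + x ^ 2 := Real.sq_sqrt (by positivity)
  have h2 : 1 ≤ s := Real.one_le_sqrt.mpr (by nlinarith)
  have : Real.sqrt (1 + (2 * x) ^ 2) ≤ 4 * s - 3 := by
    rw [Real.sqrt_le_iff]
    constructor
    · linarith
    · nlinarith [sq_nonneg (s - 1)]
  show Real.sqrt (1 + (2 * x) ^ 2) - 1 ≤ 4 * (s - 1)
  linarith

lemma psi_add (u v : ℝ) : psi (u + v) ≤ 4 * (psi u + psi v) := by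
  have hu := psi_nonneg u
  have hv := psi_nonneg v
  rcases le_total |u| |v| with h | h
  · have : psi (u + v) ≤ psi (2 * v) := psi_mono (by
      rw [abs_mul, abs_two]; linarith [abs_add_le u v])
    linarith [psi_two_mul v]
  · have : psi (u + v) ≤ psi (2 * u) := psi_mono (by
      rw [abs_mul, abs_two]; linarith [abs_add_le u v])
    linarith [psi_two_mul u]

lemma hasDerivAt_psi (u : ℝ) : HasDerivAt psi (psiD u) u := by
  have h : HasDerivAt (fun u : ℝ => 1 + u ^ 2) (2 * u) u := by
    simpa using (HasDerivAt.const_add (1:ℝ) (hasDerivAt_pow 2 u))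
  have h2 : HasDerivAt psi (2 * u / (2 * Real.sqrt (1 + u ^ 2))) u :=
    HasDerivAt.sub_const 1 (h.sqrt (by positivity))
  refine HasDerivAt.congr_deriv h2 ?_
  unfold psiD
  field_simp

lemma continuous_psi : Continuous psi := by
  unfold psi; fun_prop

lemma continuous_psiD : Continuous psiD := by
  unfold psiD
  exact continuous_id.div (by fun_prop) (fun u => (Real.sqrt_pos.mpr (by positivity)).ne')

lemma abs_psiD_le_one (u : ℝ) : |psiD u| ≤ 1 := by
  have hs : 0 < Real.sqrt (1 + u ^ 2) := Real.sqrt_pos.mpr (by positivity)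
  unfold psiD
  rw [abs_div, abs_of_pos hs, div_le_one hs]
  rw [← Real.sqrt_sq_eq_abs]
  exact Real.sqrt_le_sqrt (by linarith)

lemma psiD_sq (u : ℝ) : psiD u ^ 2 ≤ 2 * psi u := by
  set s := Real.sqrt (1 + u ^ 2) with hs
  have h1 : s ^ 2 = 1 + u ^ 2 := Real.sq_sqrt (by positivity)
  have h2 : 1 ≤ s := Real.one_le_sqrt.mpr (by nlinarith)
  show (u / s) ^ 2 ≤ 2 * (s - 1)
  rw [div_pow, div_le_iff₀ (by positivity), h1]
  nlinarith [mul_nonneg (sub_nonneg.mpr h2) (sq_nonneg (s - 1))]

/-- Young-type inequality for the weighted Poincare step. -/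
lemma psiD_mul_le (g h : ℝ) : psiD g * h ≤ 4 * psi h + psi g / 2 := by
  have h1 : psiD g * h ≤ |psiD g| * |h| := by
    rw [← abs_mul]; exact le_abs_self _
  have hw := abs_psiD_le_one g
  have hw2 : |psiD g| ^ 2 ≤ 2 * psi g := by rw [sq_abs]; exact psiD_sq g
  have hh : h ^ 2 / (|h| + 2) ≤ psi h := psi_ge
  rw [div_le_iff₀ (by positivity)] at hh
  have hh0 := psi_nonneg h
  rcases le_total |h| 2 with hc | hc
  · have : h ^ 2 ≤ 4 * psi h := by nlinarith
    nlinarith [sq_nonneg (|psiD g| / 2 - |h|), sq_abs h]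
  · have : |h| ≤ 4 * psi h := by
      nlinarith [sq_abs h, abs_nonneg h]
    nlinarith [abs_nonneg h, psi_nonneg g]

/-- The entropy penalty of a Jacobian dominates `psi`. -/
lemma psi_le_sub_log {u : ℝ} (hu : -1 < u) : psi u / 4 ≤ u - Real.log (1 + u) := by
  set r := Real.sqrt (1 + u) with hr
  have hr0 : 0 < r := Real.sqrt_pos.mpr (by linarith)
  have hr2 : r ^ 2 = 1 + u := Real.sq_sqrt (by linarith)
  have hlog : Real.log (1 + u) ≤ 2 * (r - 1) := by
    rw [← hr2, Real.log_pow]
    push_cast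
    linarith [Real.log_le_sub_one_of_pos hr0]
  set s := Real.sqrt (1 + u ^ 2) with hs
  have h1 : s ^ 2 = 1 + u ^ 2 := Real.sq_sqrt (by positivity)
  have h2 : 1 ≤ s := Real.one_le_sqrt.mpr (by nlinarith)
  have h3 : u ≤ s := by
    rw [hs]; exact le_trans (le_abs_self u) (by
      rw [← Real.sqrt_sq_eq_abs]; exact Real.sqrt_le_sqrt (by linarith))
  have key : s - 1 ≤ 4 * (r - 1) ^ 2 := by
    have e1 : (s - 1) * (s + 1) = (r - 1) ^ 2 * (r + 1) ^ 2 := by
      have e : u = r ^ 2 - 1 := by linarith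
      have : s ^ 2 - 1 = u ^ 2 := by linarith
      calc (s - 1) * (s + 1) = s ^ 2 - 1 := by ring
        _ = (r ^ 2 - 1) ^ 2 := by rw [this, e]
        _ = _ := by ring
    have e2 : (r + 1) ^ 2 ≤ 4 * (s + 1) := by nlinarith [sq_nonneg (r - 1)]
    have e3 : (s - 1) * (s + 1) ≤ 4 * (r - 1) ^ 2 * (s + 1) := by
      rw [e1]; nlinarith [sq_nonneg (r - 1)]
    exact le_of_mul_le_mul_right e3 (by linarith)
  show (s - 1) / 4 ≤ _
  nlinarith

/-- Bound used for the shift of the median. -/
lemma psi_le_binary {a : ℝ} (ha : 0 ≤ a) :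
    psi a ≤ 5 * (a - Real.log (2 - Real.exp (-a))) := by
  set w := Real.exp (-a) with hw
  have hw0 : 0 < w := Real.exp_pos _
  have hw1 : w ≤ 1 := Real.exp_le_one_iff.mpr (by linarith)
  rcases le_total a 2 with hc | hc
  · have e : a - Real.log (2 - w) = -Real.log (w * (2 - w)) := by
      rw [Real.log_mul hw0.ne' (by linarith), hw, Real.log_exp]; ring
    have : (1 - w) ^ 2 ≤ -Real.log (w * (2 - w)) := by
      have := Real.log_le_sub_one_of_pos (show 0 < w * (2 - w) by nlinarith)
      nlinarith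
    have h1 : a / (1 + a) ≤ 1 - w := by
      have : w ≤ 1 / (1 + a) := by
        rw [hw, Real.exp_neg, one_div]
        gcongr
        linarith [Real.add_one_le_exp a]
      have : a / (1 + a) = 1 - 1 / (1 + a) := by field_simp; ring
      linarith
    have h2 : a / 3 ≤ a / (1 + a) := by gcongr; linarith
    have h3 : (a / 3) ^ 2 ≤ (1 - w) ^ 2 := by
      apply pow_le_pow_left₀ (by positivity); linarith
    rw [e]
    nlinarith [psi_le_sq a]
  · have : Real.log (2 - w) ≤ 1 := by
      have := Real.log_le_sub_one_of_pos (show 0 < 2 - w by linarith)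
      linarith
    have := psi_le_abs a
    rw [abs_of_nonneg ha] at this
    linarith

lemma log_four_le : Real.log 4 ≤ 3 / 2 := by
  have h : Real.log 4 = 2 * Real.log 2 := by
    rw [show (4:ℝ) = 2 ^ 2 by norm_num, Real.log_pow]; norm_num
  linarith [Real.log_two_lt_d9]

/-- The pointwise inequality: `H` plays the role of the symmetrised log-Laplace transform at
`S`, `b = S * δ`, `h` is a displacement of size at most `4 δ r`. -/
lemma young_key {H S δ r h : ℝ} (hS : 0 ≤ S) (hδ : 0 < δ) (hr : 0 ≤ r) (hh : h ≤ 4 * δ * r)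
    (hH : Real.log ((1 + Real.cosh (S * δ)) / 2) ≤ H)
    (htail : S * h ≤ H + 2 * r + Real.log 4) :
    S * h ≤ H + 400 * psi r := by
  have hb : 0 ≤ S * δ := by positivity
  set b := S * δ with hbdef
  have hSh : S * h ≤ 4 * b * r := by
    have := mul_le_mul_of_nonneg_left hh hS
    calc S * h ≤ S * (4 * δ * r) := this
      _ = 4 * b * r := by rw [hbdef]; ring
  have hp := psi_nonneg r
  have hpr : r ^ 2 / (r + 2) ≤ psi r := by
    have := psi_ge (r := r)
    rwa [abs_of_nonneg hr] at this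
  rw [div_le_iff₀ (by linarith)] at hpr
  rcases le_total b 4 with hc | hc
  · rcases le_total r 1 with hr1 | hr1
    · have hcosh : 1 + b ^ 2 / 4 ≤ (1 + Real.cosh b) / 2 := by
        have := sum_le_hasSum (Finset.range 2)
          (fun i _ => div_nonneg ((even_two_mul i).pow_nonneg b) (Nat.cast_nonneg _))
          (Real.hasSum_cosh b)
        simp [Finset.sum_range_succ] at this
        linarith
      have hl : b ^ 2 / 20 ≤ H := by
        have h1 : Real.log (1 + b ^ 2 / 4) ≤ H :=
          le_trans (Real.log_le_log (by positivity) hcosh) hH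
        have h2 := Real.one_sub_inv_le_log_of_pos (show 0 < 1 + b ^ 2 / 4 by positivity)
        have h3 : b ^ 2 / 20 ≤ 1 - (1 + b ^ 2 / 4)⁻¹ := by
          have : 1 - (1 + b ^ 2 / 4)⁻¹ = (b ^ 2 / 4) / (1 + b ^ 2 / 4) := by
            field_simp; ring
          rw [this, le_div_iff₀ (by positivity)]
          nlinarith [sq_nonneg b, mul_le_mul hc hc hb (by norm_num)]
        linarith
      nlinarith [sq_nonneg (b / 2 - 20 * r)]
    · have : 0 ≤ H := by
        refine le_trans (Real.log_nonneg ?_) hH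
        linarith [Real.one_le_cosh b]
      have : r ≤ 3 * psi r := by nlinarith
      nlinarith
  · have hcosh : Real.exp b / 4 ≤ (1 + Real.cosh b) / 2 := by
      rw [Real.cosh_eq]; linarith [Real.exp_pos (-b)]
    have hl : b / 2 ≤ H := by
      have h1 : Real.log (Real.exp b / 4) ≤ H :=
        le_trans (Real.log_le_log (by positivity) hcosh) hH
      rw [Real.log_div (Real.exp_ne_zero _) (by norm_num), Real.log_exp] at h1
      linarith [log_four_le]
    rcases le_total r (1 / 8) with hr1 | hr1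
    · nlinarith
    · have : r ≤ 17 * psi r := by nlinarith
      linarith [log_four_le]

end Vale.Agent.P245
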