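import Vale.Agent.P245.Quantile
import Mathlib.Analysis.Convex.Continuous
import Mathlib.Analysis.Convex.Deriv
import Mathlib.Analysis.Convex.Measure
import Mathlib.Analysis.SpecialFunctions.Log.Deriv

/-! Structure of a one-dimensional log-concave law in exponential coordinates. -/

namespace Vale.Agent.P245

open MeasureTheory Set Filter Topology Real

/-- A log-concave density on the real line: nonnegative, positive on a convex set on which its
logarithm is concave. -/
def LogConcaveDensity (ρ : ℝ → ℝ) : Prop :=
  (∀ x, 0 ≤ ρ x) ∧ Convex ℝ {x | 0 < ρ x} ∧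
    ConcaveOn ℝ {x | 0 < ρ x} (fun x => Real.log (ρ x))

/-- A probability measure on the real line with a log-concave Lebesgue density. -/
def IsLogConcaveLaw (ν : Measure ℝ) : Prop :=
  IsProbabilityMeasure ν ∧ ∃ ρ : ℝ → ℝ, Measurable ρ ∧ LogConcaveDensity ρ ∧
    ν = volume.withDensity (fun x => ENNReal.ofReal (ρ x))

/-- A law written as the image of the two-sided exponential law by an increasing map `φ`, with
the properties that come from log-concavity. -/
structure Chart (ν : Measure ℝ) where
  φ : ℝ → ℝ
  φ' : ℝ → ℝ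
  D : ℝ → ℝ
  hasDerivAt : ∀ u, HasDerivAt φ (φ' u) u
  cont' : Continuous φ'
  pos : ∀ u, 0 < φ' u
  anti : AntitoneOn φ' (Ici 0)
  mono : MonotoneOn φ' (Iic 0)
  dens_le : ∀ u, pE u / φ' u ≤ 1 / φ' 0
  q_deriv : ∀ u, HasDerivWithinAt (fun u => pE u / φ' u) (-(D u) * pE u) (Ioi u) u
  subgrad : ∀ u v, Real.log (pE v / φ' v) - Real.log (pE u / φ' u) ≤ -(D u) * (φ v - φ u)
  decayTop : ∀ M, 0 ≤ M → Tendsto (fun u => pE u / φ' u * (φ (u + M) - φ (u - M))) atTop (𝓝 0)
  decayBot : ∀ M, 0 ≤ M → Tendsto (fun u => pE u / φ' u * (φ (u + M) - φ (u - M))) atBot (𝓝 0)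
  integral_map : ∀ g : ℝ → ℝ, ∫ x, g x ∂ν = ∫ u, g (φ u) * pE u
  integrable_map : ∀ g : ℝ → ℝ, Integrable g ν ↔ Integrable (fun u => g (φ u) * pE u)
  small_ball : ∀ x δ : ℝ, 0 ≤ δ →
    ∫ y, (Ioo (x - δ) (x + δ)).indicator (fun _ => (1:ℝ)) y ∂ν ≤ 2 * δ / φ' 0

section density

variable {f : ℝ → ℝ} {J : Set ℝ}

/-- Four-point inequality for log-concave functions. -/
lemma four_point (hc : ConcaveOn ℝ J (fun x => Real.log (f x))) (hpos : ∀ x ∈ J, 0 < f x)
    {a b c d : ℝ} (ha : a ∈ J) (hd : d ∈ J) (hab : a ≤ b) (hbd : b ≤ d) (hsum : b + c = a + d) :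
    f a * f d ≤ f b * f c := by
  rcases (hab.trans hbd).eq_or_lt with h | h
  · have hb : b = a := by linarith
    have hc' : c = d := by linarith
    rw [hb, hc']
  have hbJ : b ∈ J := hc.1.ordConnected.out ha hd ⟨hab, hbd⟩
  have hcJ : c ∈ J := hc.1.ordConnected.out ha hd ⟨by linarith, by linarith⟩
  set t := (b - a) / (d - a) with ht
  have hda : 0 < d - a := by linarith
  have ht0 : 0 ≤ t := div_nonneg (by linarith) hda.le
  have ht1 : t ≤ 1 := (div_le_one hda).mpr (by linarith)
  have h1 := hc.2 ha hd (sub_nonneg.mpr ht1) ht0 (by ring)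
  have h2 := hc.2 ha hd ht0 (sub_nonneg.mpr ht1) (by ring)
  simp only [smul_eq_mul] at h1 h2
  have eb : (1 - t) * a + t * d = b := by rw [ht]; field_simp; ring
  have ec : t * a + (1 - t) * d = c := by
    have : t * a + (1 - t) * d = a + d - b := by linarith [eb]
    linarith
  rw [eb] at h1
  rw [ec] at h2
  have key : Real.log (f a * f d) ≤ Real.log (f b * f c) := by
    rw [Real.log_mul (hpos a ha).ne' (hpos d hd).ne', Real.log_mul (hpos b hbJ).ne' (hpos c hcJ).ne']
    linarith
  exact (Real.log_le_log_iff (mul_pos (hpos a ha) (hpos d hd))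
    (mul_pos (hpos b hbJ) (hpos c hcJ))).mp key

lemma min_le_of_between (hc : ConcaveOn ℝ J (fun x => Real.log (f x))) (hpos : ∀ x ∈ J, 0 < f x)
    {a b x : ℝ} (ha : a ∈ J) (hb : b ∈ J) (hax : a ≤ x) (hxb : x ≤ b) :
    min (f a) (f b) ≤ f x := by
  have hxJ : x ∈ J := hc.1.ordConnected.out ha hb ⟨hax, hxb⟩
  have := hc.min_le_of_mem_Icc ha hb ⟨hax, hxb⟩
  rcases min_le_iff.mp this with h | h
  · exact (min_le_left _ _).trans ((Real.log_le_log_iff (hpos a ha) (hpos x hxJ)).mp h)
  · exact (min_le_right _ _).trans ((Real.log_le_log_iff (hpos b hb) (hpos x hxJ)).mp h)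

/-- Monotonicity of the hazard rate. -/
lemma hazard_right (hc : ConcaveOn ℝ J (fun x => Real.log (f x))) (hpos : ∀ x ∈ J, 0 < f x)
    (hout : ∀ x, x ∉ J → f x = 0) (hnn : ∀ x, 0 ≤ f x) (hint : Integrable f)
    {x x' : ℝ} (hx : x ∈ J) (hx' : x' ∈ J) (hxx : x ≤ x') :
    f x * (∫ t in Ioi x', f t) ≤ f x' * (∫ t in Ioi x, f t) := by
  have e : ∫ t in Ioi x', f t = ∫ t in Ioi x, f (t + (x' - x)) := by
    rw [← integral_indicator measurableSet_Ioi, ← integral_indicator measurableSet_Ioi,
      ← integral_add_right_eq_self (fun t => (Ioi x').indicator f t) (x' - x)]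
    refine integral_congr_ae (Eventually.of_forall fun t => ?_)
    dsimp only
    by_cases h : x < t
    · rw [indicator_of_mem (show t + (x' - x) ∈ Ioi x' by simp; linarith),
        indicator_of_mem (mem_Ioi.mpr h)]
    · rw [indicator_of_notMem (show t + (x' - x) ∉ Ioi x' by simp; linarith),
        indicator_of_notMem (by simpa using h)]
  rw [e, ← integral_const_mul, ← integral_const_mul]
  refine setIntegral_mono_on ((hint.comp_add_right _).const_mul _).integrableOn
    (hint.const_mul _).integrableOn measurableSet_Ioi (fun t ht => ?_)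
  by_cases hJ : t + (x' - x) ∈ J
  · exact four_point hc hpos hx hJ hxx (by linarith [mem_Ioi.mp ht]) (by ring)
  · simp [hout _ hJ]; exact mul_nonneg (hnn _) (hnn _)

/-- Monotonicity of the reversed hazard rate. -/
lemma hazard_left (hc : ConcaveOn ℝ J (fun x => Real.log (f x))) (hpos : ∀ x ∈ J, 0 < f x)
    (hout : ∀ x, x ∉ J → f x = 0) (hnn : ∀ x, 0 ≤ f x) (hint : Integrable f)
    {x x' : ℝ} (hx : x ∈ J) (hx' : x' ∈ J) (hxx : x ≤ x') :
    f x' * (∫ t in Iic x, f t) ≤ f x * (∫ t in Iic x', f t) := by
  have e : ∫ t in Iic x, f t = ∫ t in Iic x', f (t + (x - x')) := by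
    rw [← integral_indicator measurableSet_Iic, ← integral_indicator measurableSet_Iic,
      ← integral_add_right_eq_self (fun t => (Iic x).indicator f t) (x - x')]
    refine integral_congr_ae (Eventually.of_forall fun t => ?_)
    dsimp only
    by_cases h : t ≤ x'
    · rw [indicator_of_mem (show t + (x - x') ∈ Iic x by simp; linarith),
        indicator_of_mem (mem_Iic.mpr h)]
    · rw [indicator_of_notMem (show t + (x - x') ∉ Iic x by simp; linarith),
        indicator_of_notMem (by simpa using h)]
  rw [e, ← integral_const_mul, ← integral_const_mul]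
  refine setIntegral_mono_on ((hint.comp_add_right _).const_mul _).integrableOn
    (hint.const_mul _).integrableOn measurableSet_Iic (fun t ht => ?_)
  by_cases hJ : t + (x - x') ∈ J
  · have := four_point (c := t) hc hpos hJ hx' (b := x) (by linarith [mem_Iic.mp ht]) hxx (by ring)
    linarith
  · simp [hout _ hJ]; exact mul_nonneg (hnn _) (hnn _)

end density

/-- Every law with a log-concave density has a chart. -/
theorem exists_chart {ν : Measure ℝ} (h : IsLogConcaveLaw ν) : Nonempty (Chart ν) := by
  obtain ⟨hprob, ρ, hρm, ⟨hρ0, hconv, hconc⟩, rfl⟩ := h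
  set P := {x | 0 < ρ x} with hP
  set J := interior P with hJdef
  set f := J.indicator ρ with hf
  have hJ : IsOpen J := isOpen_interior
  have hJc : Convex ℝ J := hconv.interior
  have hsub : J ⊆ P := interior_subset
  have hfJ : ∀ x ∈ J, f x = ρ x := fun x hx => indicator_of_mem hx _
  have hpos : ∀ x ∈ J, 0 < f x := fun x hx => by rw [hfJ x hx]; exact hsub hx
  have hout : ∀ x, x ∉ J → f x = 0 := fun x hx => indicator_of_notMem hx _
  have hnn : ∀ x, 0 ≤ f x := fun x => indicator_nonneg (fun y _ => hρ0 y) x
  have hc : ConcaveOn ℝ J (fun x => Real.log (f x)) :=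
    (hconc.subset hsub hJc).congr (fun x hx => by simp only [hfJ x hx])
  have hae : f =ᵐ[volume] ρ := by
    have h0 : volume (frontier P) = 0 := hconv.addHaar_frontier volume
    filter_upwards [measure_eq_zero_iff_ae_notMem.mp h0] with x hx
    by_cases hxJ : x ∈ J
    · exact hfJ x hxJ
    · rw [hout x hxJ]
      by_contra hne
      exact hx ⟨subset_closure (lt_of_le_of_ne (hρ0 x) hne), hxJ⟩
  have hν : volume.withDensity (fun x => ENNReal.ofReal (ρ x))
      = volume.withDensity (fun x => ENNReal.ofReal (f x)) :=
    withDensity_congr_ae (hae.symm.fun_comp ENNReal.ofReal)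
  rw [hν] at hprob ⊢
  have hfm : Measurable f := hρm.indicator hJ.measurableSet
  have hlint : ∫⁻ x, ENNReal.ofReal (f x) = 1 := by
    have := hprob.measure_univ
    rwa [withDensity_apply _ MeasurableSet.univ, setLIntegral_univ] at this
  have hint : Integrable f := ⟨hfm.aestronglyMeasurable, by
    rw [hasFiniteIntegral_iff_ofReal (Eventually.of_forall hnn), hlint]; exact ENNReal.one_lt_top⟩
  have htot : ∫ x, f x = 1 := by
    rw [integral_eq_lintegral_of_nonneg_ae (Eventually.of_forall hnn) hfm.aestronglyMeasurable,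
      hlint, ENNReal.toReal_one]
  have hcW : ContinuousOn (fun x => Real.log (f x)) J := hc.continuousOn hJ
  have hcont : ContinuousOn f J :=
    (Real.continuous_exp.comp_continuousOn hcW).congr (fun x hx => (Real.exp_log (hpos x hx)).symm)
  obtain ⟨φ, hmono, hrange, hder, hG⟩ :=
    exists_quantile hJ hJc.ordConnected hcont hpos hout hint htot
  have hmem : ∀ u, φ u ∈ J := fun u => hrange ▸ mem_range_self u
  have hfp : ∀ u, 0 < f (φ u) := fun u => hpos _ (hmem u)
  have hIoi : ∀ u, ∫ x in Ioi (φ u), f x = 1 - PE u := fun u => by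
    have := intervalIntegral.integral_Iic_add_Ioi (b := φ u) hint.integrableOn hint.integrableOn
    rw [hG u, htot] at this; linarith
  have hR : ∀ u v, u ≤ v → f (φ u) * (1 - PE v) ≤ f (φ v) * (1 - PE u) := fun u v huv => by
    have := hazard_right hc hpos hout hnn hint (hmem u) (hmem v) (hmono.monotone huv)
    rwa [hIoi, hIoi] at this
  have hL : ∀ u v, u ≤ v → f (φ v) * PE u ≤ f (φ u) * PE v := fun u v huv => by
    have := hazard_left hc hpos hout hnn hint (hmem u) (hmem v) (hmono.monotone huv)
    rwa [hG, hG] at this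
  have h20 : ∀ u, f (φ u) ≤ 2 * f (φ 0) := fun u => by
    rcases le_total 0 u with hu | hu
    · have := hL 0 u hu
      rw [PE_zero] at this
      nlinarith [mul_le_mul_of_nonneg_left (PE_mem u).2.le (hfp 0).le]
    · have := hR u 0 hu
      rw [PE_zero] at this
      nlinarith [mul_le_mul_of_nonneg_left (PE_mem u).1.le (hfp 0).le]
  have hfle : ∀ x, f x ≤ 2 * f (φ 0) := fun x => by
    by_cases hx : x ∈ J
    · obtain ⟨u, rfl⟩ : x ∈ range φ := by rw [hrange]; exact hx
      exact h20 u
    · rw [hout x hx]; linarith [hfp 0]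
  set d : ℝ → ℝ := fun u => pE u / f (φ u) with hd
  have hdpos : ∀ u, 0 < d u := fun u => div_pos (pE_pos u) (hfp u)
  have hq : ∀ u, pE u / d u = f (φ u) := fun u => by
    rw [hd]; field_simp [(pE_pos u).ne', (hfp u).ne']
  have hφc : Continuous φ := continuous_iff_continuousAt.mpr fun u => (hder u).continuousAt
  have hdc : Continuous d :=
    continuous_pE.div (continuous_iff_continuousAt.mpr fun u =>
      (hcont.continuousAt (hJ.mem_nhds (hmem u))).comp hφc.continuousAt) (fun u => (hfp u).ne')
  have hanti : AntitoneOn d (Ici 0) := by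
    intro u hu v hv huv
    have := hR u v huv
    rw [PE_of_nonneg hu, PE_of_nonneg hv] at this
    simp only [hd]
    rw [div_le_div_iff₀ (hfp v) (hfp u), pE_of_nonneg hu, pE_of_nonneg hv]
    linarith
  have hmon : MonotoneOn d (Iic 0) := by
    intro u hu v hv huv
    have := hL u v huv
    rw [PE_of_nonpos hu, PE_of_nonpos hv] at this
    simp only [hd]
    rw [div_le_div_iff₀ (hfp u) (hfp v), pE_of_nonpos hu, pE_of_nonpos hv]
    linarith
  have hdle : ∀ u, d u ≤ d 0 := fun u => by
    rcases le_total 0 u with h | h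
    · exact hanti (mem_Ici.mpr le_rfl) h h
    · exact hmon h (mem_Iic.mpr le_rfl) h
  -- the potential
  set W : ℝ → ℝ := fun x => -Real.log (f x) with hW
  have hWc : ConvexOn ℝ J W := hc.neg
  have hint' : ∀ u, φ u ∈ interior J := fun u => by rw [hJ.interior_eq]; exact hmem u
  set D : ℝ → ℝ := fun u => derivWithin W (Ioi (φ u)) (φ u) with hD
  have hsubg : ∀ u v, W (φ u) + D u * (φ v - φ u) ≤ W (φ v) := by
    intro u v
    rcases lt_trichotomy (φ u) (φ v) with h | h | h
    · have := hWc.rightDeriv_le_slope_of_mem_interior (hint' u) (hmem v) h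
      rw [slope_def_field, le_div_iff₀ (by linarith)] at this
      linarith [this]
    · rw [h]; simp
    · have h1 := hWc.slope_le_leftDeriv_of_mem_interior (hmem v) (hint' u) h
      have h2 := hWc.leftDeriv_le_rightDeriv_of_mem_interior (hint' u)
      rw [slope_def_field, div_le_iff₀ (by linarith)] at h1
      have h3 := mul_le_mul_of_nonneg_right h2 (show (0:ℝ) ≤ φ u - φ v by linarith)
      simp only [hD]
      linarith
  have hLip : ∀ u M, 0 ≤ M → φ (u + M) - φ (u - M) ≤ d 0 * (2 * M) := by
    intro u M hM
    have hA : Antitone (fun t => φ t - d 0 * t) := antitone_of_hasDerivAt_nonpos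
      (f' := fun t => d t - d 0) (fun t => by
        have h : HasDerivAt (fun y => φ y - d 0 * y) (d t - d 0 * 1) t :=
          HasDerivAt.sub (hder t) ((hasDerivAt_id' t).const_mul (d 0))
        rwa [mul_one] at h)
      (fun t => sub_nonpos.mpr (hdle t))
    have := hA (show u - M ≤ u + M by linarith)
    linarith
  have hφmono := hmono.monotone
  refine ⟨{ φ := φ, φ' := d, D := D, hasDerivAt := hder, cont' := hdc, pos := hdpos,
            anti := hanti, mono := hmon, dens_le := ?_, q_deriv := ?_, subgrad := ?_,
            decayTop := ?_, decayBot := ?_, integral_map := ?_, integrable_map := ?_,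
            small_ball := ?_ }⟩
  · intro u
    rw [hq]
    simp only [hd, pE_zero]
    rw [one_div_div]
    linarith [h20 u]
  · intro u
    have h1 : HasDerivWithinAt W (D u) (Ioi (φ u)) (φ u) :=
      hWc.hasDerivWithinAt_rightDeriv_of_mem_interior (hint' u)
    have h2 := h1.comp u (hder u).hasDerivWithinAt (fun t ht => hmono ht)
    have h3 := h2.neg.exp
    have e : ∀ t, pE t / d t = Real.exp (-W (φ t)) := fun t => by
      rw [hq]; simp [hW, Real.exp_log (hfp t)]
    refine (h3.congr (fun t _ => e t) (e u)).congr_deriv ?_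
    simp only [Pi.neg_apply, Function.comp_apply, hW, neg_neg, Real.exp_log (hfp u), hd]
    field_simp [(hfp u).ne']
  · intro u v
    rw [hq, hq]
    have := hsubg u v
    simp only [hW] at this
    linarith
  · intro M hM
    by_cases hb : BddAbove (range φ)
    · have h1 := tendsto_atTop_ciSup hφmono hb
      have h2 : Tendsto (fun u => φ (u + M) - φ (u - M)) atTop (𝓝 0) := by
        simpa [sub_eq_add_neg] using (h1.comp (tendsto_atTop_add_const_right atTop M tendsto_id)).sub
          (h1.comp (tendsto_atTop_add_const_right atTop (-M) tendsto_id))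
      refine squeeze_zero (fun u => mul_nonneg (by rw [hq]; exact (hfp u).le)
        (sub_nonneg.mpr (hφmono (by linarith)))) (fun u => ?_)
        (by simpa using h2.const_mul (2 * f (φ 0)))
      rw [hq]
      exact mul_le_mul_of_nonneg_right (h20 u) (sub_nonneg.mpr (hφmono (by linarith)))
    · have h1 : Tendsto φ atTop atTop := hφmono.tendsto_atTop_atTop (fun b => by
        rw [not_bddAbove_iff] at hb
        obtain ⟨_, ⟨a, rfl⟩, ha⟩ := hb b
        exact ⟨a, ha.le⟩)
      have h2 : Tendsto (fun u => f (φ u)) atTop (𝓝 0) := by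
        rw [Metric.tendsto_nhds]
        intro ε hε
        set e' := min ε (f (φ 0)) with he'
        have he'0 : 0 < e' := lt_min hε (hfp 0)
        filter_upwards [h1.eventually (eventually_gt_atTop (φ 0 + 1 / e'))] with u hu
        rw [Real.dist_eq, sub_zero, abs_of_pos (hfp u)]
        by_contra hge
        push Not at hge
        have hle : φ 0 ≤ φ u := by linarith [div_pos one_pos he'0]
        have hmin : e' ≤ min (f (φ 0)) (f (φ u)) :=
          le_min (min_le_right _ _) ((min_le_left _ _).trans hge)
        have h3 : (φ u - φ 0) * e' ≤ ∫ t in Icc (φ 0) (φ u), f t := by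
          have := setIntegral_ge_of_const_le_real (μ := volume) measurableSet_Icc
            (by rw [Real.volume_Icc]; exact ENNReal.ofReal_ne_top)
            (fun t ht => hmin.trans (min_le_of_between hc hpos (hmem 0) (hmem u) ht.1 ht.2))
            hint.integrableOn
          rw [measureReal_def, Real.volume_Icc, ENNReal.toReal_ofReal (sub_nonneg.mpr hle)] at this
          linarith
        have h4 : ∫ t in Icc (φ 0) (φ u), f t ≤ 1 := by
          rw [← htot]; exact setIntegral_le_integral hint (Eventually.of_forall hnn)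
        have h5 : 1 < (φ u - φ 0) * e' := by
          rw [← div_lt_iff₀ he'0]; linarith
        linarith
      refine squeeze_zero (fun u => mul_nonneg (by rw [hq]; exact (hfp u).le)
        (sub_nonneg.mpr (hφmono (by linarith)))) (fun u => ?_)
        (by simpa using h2.mul_const (d 0 * (2 * M)))
      rw [hq]
      exact mul_le_mul_of_nonneg_left (hLip u M hM) (hfp u).le
  · intro M hM
    by_cases hb : BddBelow (range φ)
    · have h1 := tendsto_atBot_ciInf hφmono hb
      have h2 : Tendsto (fun u => φ (u + M) - φ (u - M)) atBot (𝓝 0) := by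
        simpa [sub_eq_add_neg] using (h1.comp (tendsto_atBot_add_const_right atBot M tendsto_id)).sub
          (h1.comp (tendsto_atBot_add_const_right atBot (-M) tendsto_id))
      refine squeeze_zero (fun u => mul_nonneg (by rw [hq]; exact (hfp u).le)
        (sub_nonneg.mpr (hφmono (by linarith)))) (fun u => ?_)
        (by simpa using h2.const_mul (2 * f (φ 0)))
      rw [hq]
      exact mul_le_mul_of_nonneg_right (h20 u) (sub_nonneg.mpr (hφmono (by linarith)))
    · have h1 : Tendsto φ atBot atBot := hφmono.tendsto_atBot_atBot (fun b => by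
        rw [not_bddBelow_iff] at hb
        obtain ⟨_, ⟨a, rfl⟩, ha⟩ := hb b
        exact ⟨a, ha.le⟩)
      have h2 : Tendsto (fun u => f (φ u)) atBot (𝓝 0) := by
        rw [Metric.tendsto_nhds]
        intro ε hε
        set e' := min ε (f (φ 0)) with he'
        have he'0 : 0 < e' := lt_min hε (hfp 0)
        filter_upwards [h1.eventually (eventually_lt_atBot (φ 0 - 1 / e'))] with u hu
        rw [Real.dist_eq, sub_zero, abs_of_pos (hfp u)]
        by_contra hge
        push Not at hge
        have hle : φ u ≤ φ 0 := by linarith [div_pos one_pos he'0]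
        have hmin : e' ≤ min (f (φ u)) (f (φ 0)) :=
          le_min ((min_le_left _ _).trans hge) (min_le_right _ _)
        have h3 : (φ 0 - φ u) * e' ≤ ∫ t in Icc (φ u) (φ 0), f t := by
          have := setIntegral_ge_of_const_le_real (μ := volume) measurableSet_Icc
            (by rw [Real.volume_Icc]; exact ENNReal.ofReal_ne_top)
            (fun t ht => hmin.trans (min_le_of_between hc hpos (hmem u) (hmem 0) ht.1 ht.2))
            hint.integrableOn
          rw [measureReal_def, Real.volume_Icc, ENNReal.toReal_ofReal (sub_nonneg.mpr hle)] at this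
          linarith
        have h4 : ∫ t in Icc (φ u) (φ 0), f t ≤ 1 := by
          rw [← htot]; exact setIntegral_le_integral hint (Eventually.of_forall hnn)
        have h5 : 1 < (φ 0 - φ u) * e' := by
          rw [← div_lt_iff₀ he'0]; linarith
        linarith
      refine squeeze_zero (fun u => mul_nonneg (by rw [hq]; exact (hfp u).le)
        (sub_nonneg.mpr (hφmono (by linarith)))) (fun u => ?_)
        (by simpa using h2.mul_const (d 0 * (2 * M)))
      rw [hq]
      exact mul_le_mul_of_nonneg_left (hLip u M hM) (hfp u).le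
  · intro g
    rw [integral_withDensity_eq_integral_toReal_smul hfm.ennreal_ofReal
      (Eventually.of_forall fun x => ENNReal.ofReal_lt_top),
      ← integral_comp_quantile hmono hrange hder hpos hout g]
    exact integral_congr_ae (Eventually.of_forall fun x => by
      simp [ENNReal.toReal_ofReal (hnn x), mul_comm])
  · intro g
    rw [integrable_withDensity_iff_integrable_smul' hfm.ennreal_ofReal
      (Eventually.of_forall fun x => ENNReal.ofReal_lt_top),
      ← integrable_comp_quantile hmono hrange hder hpos hout g]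
    exact integrable_congr (Eventually.of_forall fun x => by
      simp [ENNReal.toReal_ofReal (hnn x), mul_comm])
  · intro x δ hδ
    rw [integral_withDensity_eq_integral_toReal_smul hfm.ennreal_ofReal
      (Eventually.of_forall fun x => ENNReal.ofReal_lt_top)]
    have e : (fun y => (ENNReal.ofReal (f y)).toReal • (Ioo (x - δ) (x + δ)).indicator (fun _ => (1:ℝ)) y)
        = (Ioo (x - δ) (x + δ)).indicator f := by
      funext y
      by_cases hy : y ∈ Ioo (x - δ) (x + δ) <;> simp [hy, ENNReal.toReal_ofReal (hnn y)]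
    rw [e, integral_indicator measurableSet_Ioo]
    have h1 : ∫ y in Ioo (x - δ) (x + δ), f y ≤ ∫ y in Ioo (x - δ) (x + δ), 2 * f (φ 0) :=
      setIntegral_mono_on hint.integrableOn (integrableOn_const (by simp)) measurableSet_Ioo
        (fun y _ => hfle y)
    rw [setIntegral_const, measureReal_def, Real.volume_Ioo,
      ENNReal.toReal_ofReal (by linarith), smul_eq_mul] at h1
    simp only [hd, pE_zero]
    rw [div_div_eq_mul_div]
    refine h1.trans (le_of_eq ?_)
    ring

end Vale.Agent.P245
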