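import Vale.Agent.P245.Ineq
import Vale.Agent.P245.LogConcave
import Mathlib.Analysis.SpecialFunctions.Trigonometric.DerivHyp

/-! One-dimensional modified log-Sobolev inequality for log-concave laws, with the symmetrised
log-Laplace transform of the law as cost. -/

namespace Vale.Agent.P245

open MeasureTheory Set Filter Topology Real

/-- The numerical constant of the one-dimensional inequality. -/
noncomputable def K0 : ℝ := 134400

lemma K0_pos : 0 < K0 := by norm_num [K0]

/-- The symmetrised log-Laplace transform. -/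
noncomputable def lam (ν : Measure ℝ) (s : ℝ) : ℝ :=
  Real.log ((∫ x, Real.exp (s * x) ∂ν) * ∫ x, Real.exp (-s * x) ∂ν)

lemma lam_neg (ν : Measure ℝ) (s : ℝ) : lam ν (-s) = lam ν s := by
  simp only [lam, neg_neg, mul_comm]

lemma Integrable.bdd_pE {g : ℝ → ℝ} (hg : Continuous g) {B : ℝ} (hB : ∀ u, |g u| ≤ B) :
    Integrable (fun u => g u * pE u) :=
  integrable_pE.bdd_mul (c := B) hg.aestronglyMeasurable
    (Eventually.of_forall fun u => by rw [Real.norm_eq_abs]; exact hB u)

lemma tendsto_interval {g : ℝ → ℝ} (hg : Integrable g) :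
    Tendsto (fun R : ℝ => ∫ y in (-R)..R, g y) atTop (𝓝 (∫ y, g y)) :=
  intervalIntegral_tendsto_integral hg tendsto_neg_atTop_atBot tendsto_id

lemma tendsto_bdd_mul_pE {g : ℝ → ℝ} {B : ℝ} (hB : ∀ u, |g u| ≤ B) {l : Filter ℝ}
    (hp : Tendsto pE l (𝓝 0)) : Tendsto (fun u => g u * pE u) l (𝓝 0) := by
  refine squeeze_zero_norm (fun u => ?_) (by simpa using hp.const_mul B)
  rw [norm_mul, Real.norm_eq_abs, Real.norm_eq_abs, abs_of_pos (pE_pos u)]
  exact mul_le_mul_of_nonneg_right (hB u) (pE_pos u).le

lemma tendsto_pE_atTop : Tendsto pE atTop (𝓝 0) := by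
  have : Tendsto (fun y : ℝ => Real.exp (-y) / 2) atTop (𝓝 0) := by
    simpa using Real.tendsto_exp_neg_atTop_nhds_zero.div_const 2
  exact this.congr' (eventually_atTop.mpr ⟨0, fun y hy => (pE_of_nonneg hy).symm⟩)

lemma tendsto_pE_atBot : Tendsto pE atBot (𝓝 0) := by
  have : Tendsto (fun y : ℝ => Real.exp y / 2) atBot (𝓝 0) := by
    simpa using Real.tendsto_exp_atBot.div_const 2
  exact this.congr' (eventually_atBot.mpr ⟨0, fun y hy => (pE_of_nonpos hy).symm⟩)

namespace Chart

variable {ν : Measure ℝ} (c : Chart ν)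

lemma continuous_φ : Continuous c.φ :=
  continuous_iff_continuousAt.mpr fun u => (c.hasDerivAt u).continuousAt

lemma strictMono_φ : StrictMono c.φ := strictMono_of_hasDerivAt_pos c.hasDerivAt c.pos

lemma deriv_le (u : ℝ) : c.φ' u ≤ c.φ' 0 := by
  rcases le_total 0 u with h | h
  · exact c.anti (mem_Ici.mpr le_rfl) h h
  · exact c.mono h (mem_Iic.mpr le_rfl) h

lemma lip (u v : ℝ) : |c.φ u - c.φ v| ≤ c.φ' 0 * |u - v| := by
  have hA : Antitone (fun t => c.φ t - c.φ' 0 * t) := antitone_of_hasDerivAt_nonpos
    (f' := fun t => c.φ' t - c.φ' 0) (fun t => by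
      have h : HasDerivAt (fun y => c.φ y - c.φ' 0 * y) (c.φ' t - c.φ' 0 * 1) t :=
        HasDerivAt.sub (c.hasDerivAt t) ((hasDerivAt_id' t).const_mul _)
      rwa [mul_one] at h)
    (fun t => sub_nonpos.mpr (c.deriv_le t))
  rcases le_total v u with h | h
  · have := hA h
    rw [abs_of_nonneg (sub_nonneg.mpr (c.strictMono_φ.monotone h)), abs_of_nonneg (by linarith)]
    linarith
  · have := hA h
    rw [abs_of_nonpos (sub_nonpos.mpr (c.strictMono_φ.monotone h)), abs_of_nonpos (by linarith)]
    linarith

lemma incr_le (r v : ℝ) (hr : 0 ≤ r) : c.φ (v + r) - c.φ v ≤ c.φ r - c.φ (-r) := by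
  have hm := c.strictMono_φ.monotone
  have hd : ∀ t, HasDerivAt (fun t => c.φ (t + r) - c.φ t) (c.φ' (t + r) - c.φ' t) t := fun t =>
    HasDerivAt.sub ((c.hasDerivAt (t + r)).comp_add_const t r) (c.hasDerivAt t)
  have hc : Continuous (fun t => c.φ (t + r) - c.φ t) :=
    continuous_iff_continuousAt.mpr fun t => (hd t).continuousAt
  rcases le_total 0 v with hv | hv
  · have hA : AntitoneOn (fun t => c.φ (t + r) - c.φ t) (Ici 0) :=
      antitoneOn_of_deriv_nonpos (convex_Ici 0) hc.continuousOn
        (fun t _ => (hd t).differentiableAt.differentiableWithinAt) (fun t ht => by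
          rw [(hd t).deriv]
          have : (0:ℝ) ≤ t := interior_subset ht
          linarith [c.anti (mem_Ici.mpr this) (mem_Ici.mpr (by linarith : (0:ℝ) ≤ t + r))
            (by linarith)])
    have := hA (mem_Ici.mpr le_rfl) hv hv
    simp only [zero_add] at this
    linarith [hm (show -r ≤ 0 by linarith)]
  · rcases le_total (v + r) 0 with hvr | hvr
    · have hA : MonotoneOn (fun t => c.φ (t + r) - c.φ t) (Iic (-r)) :=
        monotoneOn_of_deriv_nonneg (convex_Iic _) hc.continuousOn
          (fun t _ => (hd t).differentiableAt.differentiableWithinAt) (fun t ht => by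
            rw [(hd t).deriv]
            have : t ≤ -r := interior_subset (s := Iic (-r)) ht
            linarith [c.mono (mem_Iic.mpr (by linarith : t ≤ 0))
              (mem_Iic.mpr (by linarith : t + r ≤ 0)) (by linarith)])
      have := hA (mem_Iic.mpr (by linarith : v ≤ -r)) (mem_Iic.mpr le_rfl) (by linarith)
      simp only [neg_add_cancel] at this
      linarith [hm hr]
    · linarith [hm (show v + r ≤ r by linarith), hm (show -r ≤ v by linarith)]

lemma abs_incr_le (u v : ℝ) : |c.φ u - c.φ v| ≤ c.φ |u - v| - c.φ (-|u - v|) := by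
  have hm := c.strictMono_φ.monotone
  rcases le_total v u with h | h
  · rw [abs_of_nonneg (show 0 ≤ u - v by linarith), abs_of_nonneg (sub_nonneg.mpr (hm h))]
    simpa using c.incr_le (u - v) v (by linarith)
  · rw [abs_of_nonpos (show u - v ≤ 0 by linarith), abs_of_nonpos (sub_nonpos.mpr (hm h))]
    simpa using c.incr_le (v - u) u (by linarith)

lemma integrable_exp_map {t : ℝ} (h : Integrable (fun x => Real.exp (t * x)) ν) :
    Integrable (fun u => Real.exp (t * c.φ u) * pE u) :=
  (c.integrable_map _).mp h

lemma mgf_right {t r : ℝ} (ht : 0 ≤ t) (hr : 0 ≤ r)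
    (h : Integrable (fun x => Real.exp (t * x)) ν) :
    Real.exp (t * c.φ r) * (Real.exp (-r) / 2) ≤ ∫ x, Real.exp (t * x) ∂ν := by
  rw [c.integral_map]
  have hi := c.integrable_exp_map h
  refine le_trans ?_ (setIntegral_le_integral (s := Ioi r) hi
    (Eventually.of_forall fun u => mul_nonneg (Real.exp_pos _).le (pE_pos u).le))
  have e : Real.exp (t * c.φ r) * (Real.exp (-r) / 2)
      = ∫ u in Ioi r, Real.exp (t * c.φ r) * pE u := by
    rw [integral_const_mul, integral_pE_Ioi, PE_of_nonneg hr]; ring
  rw [e]
  refine setIntegral_mono_on (integrable_pE.const_mul _).integrableOn hi.integrableOn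
    measurableSet_Ioi (fun u hu => ?_)
  gcongr
  · exact (pE_pos u).le
  · exact c.strictMono_φ.monotone (le_of_lt hu)

lemma mgf_left {t r : ℝ} (ht : 0 ≤ t) (hr : 0 ≤ r)
    (h : Integrable (fun x => Real.exp (-t * x)) ν) :
    Real.exp (-t * c.φ (-r)) * (Real.exp (-r) / 2) ≤ ∫ x, Real.exp (-t * x) ∂ν := by
  rw [c.integral_map]
  have hi := c.integrable_exp_map h
  refine le_trans ?_ (setIntegral_le_integral (s := Iic (-r)) hi
    (Eventually.of_forall fun u => mul_nonneg (Real.exp_pos _).le (pE_pos u).le))
  have e : Real.exp (-t * c.φ (-r)) * (Real.exp (-r) / 2)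
      = ∫ u in Iic (-r), Real.exp (-t * c.φ (-r)) * pE u := by
    rw [integral_const_mul, integral_pE_Iic, PE_of_nonpos (by linarith)]
  rw [e]
  refine setIntegral_mono_on (integrable_pE.const_mul _).integrableOn hi.integrableOn
    measurableSet_Iic (fun u hu => ?_)
  refine mul_le_mul_of_nonneg_right (Real.exp_le_exp.mpr ?_) (pE_pos u).le
  nlinarith [c.strictMono_φ.monotone (mem_Iic.mp hu)]

lemma mgf_cosh (c : Chart ν) [IsProbabilityMeasure ν] {t : ℝ}
    (hp : Integrable (fun x => Real.exp (t * x)) ν)
    (hm : Integrable (fun x => Real.exp (-t * x)) ν) :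
    (1 + Real.cosh (t * (c.φ' 0 / 4))) / 2
      ≤ (∫ x, Real.exp (t * x) ∂ν) * ∫ x, Real.exp (-t * x) ∂ν := by
  set δ := c.φ' 0 / 4 with hδdef
  have hδ : 0 < δ := by have := c.pos 0; positivity
  set A := ∫ x, Real.exp (t * x) ∂ν with hA
  set B := ∫ x, Real.exp (-t * x) ∂ν with hB
  set k := Real.cosh (t * δ) with hk
  have hk1 : 1 ≤ k := Real.one_le_cosh _
  have hexp : ∀ x y, Real.cosh (t * (x - y))
      = (Real.exp (t * x) * Real.exp (-t * y) + Real.exp (-t * x) * Real.exp (t * y)) / 2 := by
    intro x y
    rw [Real.cosh_eq, ← Real.exp_add, ← Real.exp_add]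
    ring_nf
  have hinner : ∀ x, (1 + k) / 2 ≤ (Real.exp (t * x) * B + Real.exp (-t * x) * A) / 2 := by
    intro x
    have hi1 := (hm.const_mul (Real.exp (t * x)))
    have hi2 := (hp.const_mul (Real.exp (-t * x)))
    have hi : Integrable (fun y => Real.cosh (t * (x - y))) ν := by
      simp only [hexp]
      exact (hi1.add hi2).div_const 2
    have he : ∫ y, Real.cosh (t * (x - y)) ∂ν
        = (Real.exp (t * x) * B + Real.exp (-t * x) * A) / 2 := by
      simp only [hexp]
      rw [integral_div, integral_add hi1 hi2, integral_const_mul, integral_const_mul]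
    set Ind := (Ioo (x - δ) (x + δ)).indicator (fun _ => (1:ℝ)) with hInd
    have hIi : Integrable Ind ν := (integrable_const (1:ℝ)).indicator measurableSet_Ioo
    have hle : ∀ y, k - (k - 1) * Ind y ≤ Real.cosh (t * (x - y)) := by
      intro y
      by_cases hy : y ∈ Ioo (x - δ) (x + δ)
      · rw [hInd, indicator_of_mem hy]
        linarith [Real.one_le_cosh (t * (x - y))]
      · rw [hInd, indicator_of_notMem hy, mul_zero, sub_zero, hk, Real.cosh_le_cosh, abs_mul,
          abs_mul, abs_of_pos hδ]
        refine mul_le_mul_of_nonneg_left ?_ (abs_nonneg _)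
        simp only [mem_Ioo, not_and, not_lt] at hy
        by_contra hh
        push Not at hh
        rw [abs_lt] at hh
        linarith [hy (by linarith)]
    have := integral_mono ((integrable_const k).sub (hIi.const_mul (k - 1))) hi hle
    simp only [Pi.sub_apply] at this
    rw [integral_sub (integrable_const k) (hIi.const_mul _), integral_const, integral_const_mul,
      he, probReal_univ, one_smul] at this
    have hb : ∫ y, Ind y ∂ν ≤ 1 / 2 := by
      refine (c.small_ball x δ hδ.le).trans (le_of_eq ?_)
      rw [hδdef]; field_simp [(c.pos 0).ne']; ring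
    nlinarith [mul_le_mul_of_nonneg_left hb (sub_nonneg.mpr hk1)]
  have := integral_mono (μ := ν) (integrable_const ((1 + k) / 2))
    (((hp.mul_const B).add (hm.mul_const A)).div_const 2) hinner
  simp only [Pi.add_apply] at this
  rw [integral_const, probReal_univ, one_smul, integral_div,
    integral_add (hp.mul_const B) (hm.mul_const A), integral_mul_const, integral_mul_const] at this
  linarith

/-- Pointwise Young inequality between the log-Laplace transform and a displacement. -/
lemma young (c : Chart ν) [IsProbabilityMeasure ν] (s u v : ℝ)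
    (hp : Integrable (fun x => Real.exp (s * x)) ν)
    (hm : Integrable (fun x => Real.exp (-s * x)) ν) :
    s * (c.φ u - c.φ v) ≤ lam ν s + 400 * psi (u - v) := by
  have h1 : s * (c.φ u - c.φ v) ≤ |s| * |c.φ u - c.φ v| := by
    rw [← abs_mul]; exact le_abs_self _
  refine h1.trans ?_
  rw [← psi_abs]
  set S := |s| with hS
  have hsym : (∫ x, Real.exp (s * x) ∂ν) * (∫ x, Real.exp (-s * x) ∂ν)
      = (∫ x, Real.exp (S * x) ∂ν) * (∫ x, Real.exp (-S * x) ∂ν) ∧
      Integrable (fun x => Real.exp (S * x)) ν ∧ Integrable (fun x => Real.exp (-S * x)) ν := by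
    rcases abs_choice s with h | h <;> rw [hS, h]
    · exact ⟨rfl, hp, hm⟩
    · refine ⟨?_, hm, by simpa using hp⟩
      simp only [neg_neg]; ring
  obtain ⟨he, hP, hM⟩ := hsym
  have hS0 : 0 ≤ S := abs_nonneg _
  have hc := c.mgf_cosh hP hM
  have hpos : 0 < (∫ x, Real.exp (S * x) ∂ν) * (∫ x, Real.exp (-S * x) ∂ν) :=
    lt_of_lt_of_le (by positivity) hc
  refine young_key (δ := c.φ' 0 / 4) hS0 (by linarith [c.pos 0]) (abs_nonneg _) ?_ ?_ ?_
  · calc |c.φ u - c.φ v| ≤ c.φ' 0 * |u - v| := c.lip u v
      _ = _ := by ring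
  · rw [lam, he]
    exact Real.log_le_log (by positivity) hc
  · set r := |u - v| with hr
    have hr0 : 0 ≤ r := abs_nonneg _
    have h2 := mul_le_mul (c.mgf_right hS0 hr0 hP) (c.mgf_left hS0 hr0 hM) (by positivity)
      (integral_nonneg fun x => (Real.exp_pos _).le)
    have h3 : Real.log (Real.exp (S * c.φ r) * (Real.exp (-r) / 2) *
        (Real.exp (-S * c.φ (-r)) * (Real.exp (-r) / 2))) ≤ lam ν s := by
      rw [lam, he]; exact Real.log_le_log (by positivity) h2
    have h4 : Real.exp (S * c.φ r) * (Real.exp (-r) / 2) *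
        (Real.exp (-S * c.φ (-r)) * (Real.exp (-r) / 2))
        = Real.exp (S * (c.φ r - c.φ (-r)) - 2 * r) / 4 := by
      rw [show S * (c.φ r - c.φ (-r)) - 2 * r = S * c.φ r + (-r) + ((-S) * c.φ (-r) + (-r)) by ring,
        Real.exp_add, Real.exp_add, Real.exp_add]
      ring
    rw [h4, Real.log_div (Real.exp_ne_zero _) (by norm_num), Real.log_exp] at h3
    have := mul_le_mul_of_nonneg_left (c.abs_incr_le u v) hS0
    rw [← hr] at this
    linarith

end Chart

/-- The transport step and the inequality for a normalised density `exp F`. -/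
theorem one_dim_normalized {ν : Measure ℝ} [IsProbabilityMeasure ν] (c : Chart ν)
    {F F' : ℝ → ℝ} {M : ℝ} (hF : ∀ x, HasDerivAt F (F' x) x) (hF'c : Continuous F')
    (hFb : ∀ x, |F x| ≤ M) (hF'b : ∀ x, |F' x| ≤ M)
    (hnorm : ∫ x, Real.exp (F x) ∂ν = 1)
    (hexpI : ∀ x, Integrable (fun t => Real.exp (K0 * F' x * t)) ν ∧
      Integrable (fun t => Real.exp (-(K0 * F' x) * t)) ν)
    {h : ℝ → ℝ} (hhm : Measurable h) {B : ℝ} (hhb : ∀ x, |h x| ≤ B)
    (hh : ∀ x, lam ν (K0 * F' x) ≤ h x) :
    ∫ x, F x * Real.exp (F x) ∂ν ≤ 2 / K0 * ∫ x, h x * Real.exp (F x) ∂ν := by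
  have hM : 0 ≤ M := (abs_nonneg _).trans (hFb 0)
  have hFc : Continuous F := continuous_iff_continuousAt.mpr fun x => (hF x).continuousAt
  have hφc := c.continuous_φ
  set w : ℝ → ℝ := fun u => Real.exp (F (c.φ u)) * pE u with hw
  have hwc : Continuous w := ((hFc.comp hφc).rexp).mul continuous_pE
  have hwi : Integrable w := Integrable.bdd_pE ((hFc.comp hφc).rexp) (B := Real.exp M)
    (fun u => by rw [abs_of_pos (Real.exp_pos _)]; exact Real.exp_le_exp.mpr (abs_le.mp (hFb _)).2)
  have hwtot : ∫ u, w u = 1 := by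
    have := c.integral_map (fun x => Real.exp (F x))
    rw [hnorm] at this; exact this.symm
  have hwpos : ∀ u, 0 < w u := fun u => mul_pos (Real.exp_pos _) (pE_pos u)
  obtain ⟨S, hSm, hSr, hSd, hSG⟩ := exists_quantile isOpen_univ ordConnected_univ
    hwc.continuousOn (fun u _ => hwpos u) (fun u hu => absurd (mem_univ u) hu) hwi hwtot
  set S' : ℝ → ℝ := fun y => pE y / w (S y) with hS'
  have hS'pos : ∀ y, 0 < S' y := fun y => div_pos (pE_pos y) (hwpos _)
  have hSc : Continuous S := continuous_iff_continuousAt.mpr fun y => (hSd y).continuousAt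
  have hS'c : Continuous S' := continuous_pE.div (hwc.comp hSc) (fun y => (hwpos _).ne')
  set L : ℝ → ℝ := fun y => F (c.φ (S y)) with hL
  have hLc : Continuous L := hFc.comp (hφc.comp hSc)
  have hLb : ∀ y, |L y| ≤ M := fun y => hFb _
  have hid : ∀ y, Real.exp (L y) * pE (S y) * S' y = pE y := fun y => by
    simp only [hS']
    rw [show Real.exp (L y) * pE (S y) = w (S y) from rfl]
    field_simp [(hwpos (S y)).ne']
  have hLeq : ∀ y, L y = |S y| - |y| - Real.log (S' y) := fun y => by
    have := congrArg Real.log (hid y)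
    rw [Real.log_mul (mul_ne_zero (Real.exp_ne_zero _) (pE_pos _).ne') (hS'pos y).ne',
      Real.log_mul (Real.exp_ne_zero _) (pE_pos _).ne', Real.log_exp] at this
    simp only [pE] at this
    rw [Real.log_div (Real.exp_ne_zero _) two_ne_zero, Real.log_div (Real.exp_ne_zero _) two_ne_zero,
      Real.log_exp, Real.log_exp] at this
    linarith
  set d : ℝ → ℝ := fun y => S y - y with hd
  set d' : ℝ → ℝ := fun y => S' y - 1 with hd'
  have hdd : ∀ y, HasDerivAt d (d' y) y := fun y => HasDerivAt.sub (hSd y) (hasDerivAt_id' y)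
  have hdc : Continuous d := hSc.sub continuous_id
  have hd'c : Continuous d' := hS'c.sub continuous_const
  -- the displacement is bounded
  have hcomp : ∀ y, Real.exp (-M) * PE (S y) ≤ PE y ∧ PE y ≤ Real.exp M * PE (S y) ∧
      Real.exp (-M) * (1 - PE (S y)) ≤ 1 - PE y ∧ 1 - PE y ≤ Real.exp M * (1 - PE (S y)) := by
    intro y
    have hlo : ∀ u, Real.exp (-M) * pE u ≤ w u := fun u =>
      mul_le_mul_of_nonneg_right (Real.exp_le_exp.mpr (abs_le.mp (hFb _)).1) (pE_pos u).le
    have hhi : ∀ u, w u ≤ Real.exp M * pE u := fun u =>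
      mul_le_mul_of_nonneg_right (Real.exp_le_exp.mpr (abs_le.mp (hFb _)).2) (pE_pos u).le
    have hIoi : ∫ u in Ioi (S y), w u = 1 - PE y := by
      have := intervalIntegral.integral_Iic_add_Ioi (b := S y) hwi.integrableOn hwi.integrableOn
      rw [hSG y, hwtot] at this; linarith
    refine ⟨?_, ?_, ?_, ?_⟩
    · rw [← hSG y, ← integral_pE_Iic (S y), ← integral_const_mul]
      exact setIntegral_mono (integrable_pE.const_mul _).integrableOn hwi.integrableOn hlo
    · rw [← hSG y, ← integral_pE_Iic (S y), ← integral_const_mul]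
      exact setIntegral_mono hwi.integrableOn (integrable_pE.const_mul _).integrableOn hhi
    · rw [← hIoi, ← integral_pE_Ioi (S y), ← integral_const_mul]
      exact setIntegral_mono (integrable_pE.const_mul _).integrableOn hwi.integrableOn hlo
    · rw [← hIoi, ← integral_pE_Ioi (S y), ← integral_const_mul]
      exact setIntegral_mono hwi.integrableOn (integrable_pE.const_mul _).integrableOn hhi
  have hdb : ∀ y, |d y| ≤ 2 * M := by
    intro y
    obtain ⟨h1, h2, h3, h4⟩ := hcomp y
    have mulexp : ∀ a b : ℝ, Real.exp a * (Real.exp b / 2) = Real.exp (a + b) / 2 := fun a b => by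
      rw [Real.exp_add]; ring
    rw [abs_le]
    rcases le_total y 0 with hy | hy <;> rcases le_total (S y) 0 with hs | hs
    · rw [PE_of_nonpos hy, PE_of_nonpos hs, mulexp] at h1 h2
      have := Real.exp_le_exp.mp (show Real.exp (-M + S y) ≤ Real.exp y by linarith)
      have := Real.exp_le_exp.mp (show Real.exp y ≤ Real.exp (M + S y) by linarith)
      constructor <;> simp only [hd] <;> linarith
    · -- `y ≤ 0 ≤ S y`
      have h5 : Real.exp (-M) * (1 / 2) ≤ PE y := by
        refine le_trans (mul_le_mul_of_nonneg_left ?_ (Real.exp_pos _).le) h1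
        rw [← PE_zero]; exact strictMono_PE.monotone hs
      rw [PE_of_nonpos hy] at h5
      have := Real.exp_le_exp.mp (show Real.exp (-M) ≤ Real.exp y by linarith)
      have h6 : 1 / 2 ≤ 1 - PE y := by
        have := strictMono_PE.monotone hy; rw [PE_zero] at this; linarith
      rw [PE_of_nonneg hs, sub_sub_cancel, mulexp] at h4
      have := Real.exp_le_exp.mp (show Real.exp 0 ≤ Real.exp (M + -S y) by
        rw [Real.exp_zero]; linarith)
      constructor <;> simp only [hd] <;> linarith
    · -- `S y ≤ 0 ≤ y`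
      have h5 : Real.exp (-M) * (1 / 2) ≤ 1 - PE y := by
        refine le_trans (mul_le_mul_of_nonneg_left ?_ (Real.exp_pos _).le) h3
        have := strictMono_PE.monotone hs; rw [PE_zero] at this; linarith
      rw [PE_of_nonneg hy, sub_sub_cancel] at h5
      have := Real.exp_le_exp.mp (show Real.exp (-M) ≤ Real.exp (-y) by linarith)
      have h6 : 1 / 2 ≤ PE y := by
        rw [← PE_zero]; exact strictMono_PE.monotone hy
      rw [PE_of_nonpos hs, mulexp] at h2
      have := Real.exp_le_exp.mp (show Real.exp 0 ≤ Real.exp (M + S y) by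
        rw [Real.exp_zero]; linarith)
      constructor <;> simp only [hd] <;> linarith
    · rw [PE_of_nonneg hy, PE_of_nonneg hs, sub_sub_cancel, sub_sub_cancel, mulexp] at h3 h4
      have := Real.exp_le_exp.mp (show Real.exp (-M + -S y) ≤ Real.exp (-y) by linarith)
      have := Real.exp_le_exp.mp (show Real.exp (-y) ≤ Real.exp (M + -S y) by linarith)
      constructor <;> simp only [hd] <;> linarith
  have hd'b : ∀ y, |d' y| ≤ Real.exp (3 * M) + 1 := by
    intro y
    have h1 : Real.log (S' y) ≤ 3 * M := by
      have h2 := hLeq y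
      have h3 := abs_sub_abs_le_abs_sub (S y) y
      have h4 : |S y - y| ≤ 2 * M := hdb y
      linarith [(abs_le.mp (hLb y)).1]
    have h5 : S' y ≤ Real.exp (3 * M) := (Real.log_le_iff_le_exp (hS'pos y)).mp h1
    rw [abs_le]
    constructor <;> simp only [hd'] <;> linarith [hS'pos y, Real.exp_pos (3 * M)]
  have hStop : Tendsto S atTop atTop := tendsto_atTop_mono
    (fun y => by simp only [id]; linarith [(abs_le.mp (hdb y)).1, show d y = S y - y from rfl])
    (tendsto_atTop_add_const_right atTop (-(2 * M)) tendsto_id)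
  have hSbot : Tendsto S atBot atBot := tendsto_atBot_mono
    (fun y => by simp only [id]; linarith [(abs_le.mp (hdb y)).2, show d y = S y - y from rfl])
    (tendsto_atBot_add_const_right atBot (2 * M) tendsto_id)
  set T := ∫ y, L y * pE y with hT
  have hLi : Integrable (fun y => L y * pE y) := Integrable.bdd_pE hLc hLb
  have hP' : Integrable (fun y => psi (d' y) * pE y) :=
    Integrable.bdd_pE (continuous_psi.comp hd'c) (fun y => by
      rw [abs_of_nonneg (psi_nonneg _)]; exact (psi_le_abs _).trans (hd'b y))
  -- (1) Jacobian penalty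
  have step1 : ∫ y, psi (d' y) * pE y ≤ 4 * T := by
    have key : ∀ R, 0 ≤ R → (∫ y in (-R)..R, psi (d' y) * pE y) / 4 ≤
        (∫ y in (-R)..R, L y * pE y) + (d R * pE R - d (-R) * pE (-R)) := by
      intro R hR
      have hci : ∀ a b : ℝ, IntervalIntegrable (fun y => psi (d' y) * pE y) volume a b :=
        fun a b => hP'.intervalIntegrable
      have hcl : ∀ a b : ℝ, IntervalIntegrable (fun y => L y * pE y) volume a b :=
        fun a b => hLi.intervalIntegrable
      have hs : ∀ y, psi (d' y) / 4 ≤ d' y - Real.log (S' y) := fun y => by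
        have := psi_le_sub_log (u := d' y) (by linarith [hS'pos y, show d' y = S' y - 1 from rfl])
        rwa [show 1 + d' y = S' y by simp [hd']] at this
      have hpos : (∫ y in (0:ℝ)..R, psi (d' y) * pE y) / 4 ≤
          (∫ y in (0:ℝ)..R, L y * pE y) + (d R * pE R - d 0 * pE 0) := by
        have hD : ∀ y, HasDerivAt (fun y => d y * (Real.exp (-y) / 2))
            ((d' y - d y) * (Real.exp (-y) / 2)) y := fun y => by
          refine HasDerivAt.congr_deriv ((hdd y).mul
            (((Real.hasDerivAt_exp (-y)).comp y (hasDerivAt_neg y)).div_const 2)) ?_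
          ring
        have hDc : Continuous (fun y => (d' y - d y) * (Real.exp (-y) / 2)) := by fun_prop
        have e := intervalIntegral.integral_eq_sub_of_hasDerivAt (fun y _ => hD y)
          (hDc.intervalIntegrable (0:ℝ) R)
        have hle := intervalIntegral.integral_mono_on hR ((hci 0 R).div_const 4)
          ((hcl 0 R).add (hDc.intervalIntegrable (0:ℝ) R)) (fun y hy => by
            rw [pE_of_nonneg hy.1]
            have h1 := hs y
            have h2 : d y ≤ |S y| - |y| := by
              rw [abs_of_nonneg hy.1]; simp only [hd]; linarith [le_abs_self (S y)]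
            have h3 := hLeq y
            have h4 : psi (d' y) / 4 ≤ L y + (d' y - d y) := by linarith
            have := mul_le_mul_of_nonneg_right h4 (show 0 ≤ Real.exp (-y) / 2 by positivity)
            linarith)
        rw [intervalIntegral.integral_div, intervalIntegral.integral_add (hcl 0 R)
          (hDc.intervalIntegrable _ _), e, ← pE_of_nonneg hR, ← pE_of_nonneg (le_refl (0:ℝ))] at hle
        exact hle
      have hneg : (∫ y in (-R)..0, psi (d' y) * pE y) / 4 ≤
          (∫ y in (-R)..0, L y * pE y) + (d 0 * pE 0 - d (-R) * pE (-R)) := by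
        have hD : ∀ y, HasDerivAt (fun y => d y * (Real.exp y / 2))
            ((d' y + d y) * (Real.exp y / 2)) y := fun y => by
          refine HasDerivAt.congr_deriv ((hdd y).mul ((Real.hasDerivAt_exp y).div_const 2)) ?_
          ring
        have hDc : Continuous (fun y => (d' y + d y) * (Real.exp y / 2)) := by fun_prop
        have e := intervalIntegral.integral_eq_sub_of_hasDerivAt (fun y _ => hD y)
          (hDc.intervalIntegrable (-R) (0:ℝ))
        have hle := intervalIntegral.integral_mono_on (show -R ≤ 0 by linarith)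
          ((hci (-R) 0).div_const 4)
          ((hcl (-R) 0).add (hDc.intervalIntegrable (-R) (0:ℝ))) (fun y hy => by
            rw [pE_of_nonpos hy.2]
            have h1 := hs y
            have h2 : -d y ≤ |S y| - |y| := by
              rw [abs_of_nonpos hy.2]; simp only [hd]; linarith [neg_le_abs (S y)]
            have h3 := hLeq y
            have h4 : psi (d' y) / 4 ≤ L y + (d' y + d y) := by linarith
            have := mul_le_mul_of_nonneg_right h4 (show 0 ≤ Real.exp y / 2 by positivity)
            linarith)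
        rw [intervalIntegral.integral_div, intervalIntegral.integral_add (hcl (-R) 0)
          (hDc.intervalIntegrable _ _), e, ← pE_of_nonpos (neg_nonpos.mpr hR),
          ← pE_of_nonpos (le_refl (0:ℝ))] at hle
        exact hle
      rw [← intervalIntegral.integral_add_adjacent_intervals (hci (-R) 0) (hci 0 R),
        ← intervalIntegral.integral_add_adjacent_intervals (hcl (-R) 0) (hcl 0 R)]
      linarith
    have t1 := tendsto_bdd_mul_pE hdb tendsto_pE_atTop
    have t2 := (tendsto_bdd_mul_pE hdb tendsto_pE_atBot).comp tendsto_neg_atTop_atBot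
    have := le_of_tendsto_of_tendsto ((tendsto_interval hP').div_const 4)
      ((tendsto_interval hLi).add (t1.sub t2)) (eventually_atTop.mpr ⟨0, key⟩)
    linarith
  -- (2) Poincare inequality for `psi`
  set g : ℝ → ℝ := fun y => d y - d 0 with hg
  have hgc : Continuous g := hdc.sub continuous_const
  have hgb : ∀ y, |g y| ≤ 4 * M := fun y => by
    have h1 := abs_sub (d y) (d 0)
    simp only [hg]; linarith [hdb y, hdb 0]
  have hPg : Integrable (fun y => psi (g y) * pE y) :=
    Integrable.bdd_pE (continuous_psi.comp hgc) (fun y => by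
      rw [abs_of_nonneg (psi_nonneg _)]; exact (psi_le_abs _).trans (hgb y))
  have step2 : ∫ y, psi (g y) * pE y ≤ 8 * ∫ y, psi (d' y) * pE y := by
    have key : ∀ R, 0 ≤ R → (∫ y in (-R)..R, psi (g y) * pE y) ≤
        8 * ∫ y in (-R)..R, psi (d' y) * pE y := by
      intro R hR
      have hci : ∀ a b : ℝ, IntervalIntegrable (fun y => psi (d' y) * pE y) volume a b :=
        fun a b => hP'.intervalIntegrable
      have hcg : ∀ a b : ℝ, IntervalIntegrable (fun y => psi (g y) * pE y) volume a b :=
        fun a b => hPg.intervalIntegrable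
      have hgd : ∀ y, HasDerivAt (fun y => psi (g y)) (psiD (g y) * d' y) y := fun y =>
        (hasDerivAt_psi (g y)).comp y ((hdd y).sub_const (d 0))
      have hg0 : psi (g 0) = 0 := by simp [hg, psi_zero]
      have hcd : Continuous (fun y => psiD (g y) * d' y) := (continuous_psiD.comp hgc).mul hd'c
      have hcp : Continuous (fun y => psi (g y)) := continuous_psi.comp hgc
      have hpos : (∫ y in (0:ℝ)..R, psi (g y) * pE y) ≤ 8 * ∫ y in (0:ℝ)..R, psi (d' y) * pE y := by
        have hD : ∀ y, HasDerivAt (fun y => psi (g y) * (Real.exp (-y) / 2))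
            ((psiD (g y) * d' y - psi (g y)) * (Real.exp (-y) / 2)) y := fun y => by
          refine HasDerivAt.congr_deriv ((hgd y).mul
            (((Real.hasDerivAt_exp (-y)).comp y (hasDerivAt_neg y)).div_const 2)) ?_
          ring
        have hDc : Continuous (fun y => (psiD (g y) * d' y - psi (g y)) * (Real.exp (-y) / 2)) :=
          (hcd.sub hcp).mul (by fun_prop)
        have e := intervalIntegral.integral_eq_sub_of_hasDerivAt (fun y _ => hD y)
          (hDc.intervalIntegrable (0:ℝ) R)
        have hle := intervalIntegral.integral_mono_on hR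
          ((hDc.intervalIntegrable (0:ℝ) R).add ((hcg 0 R).div_const 2))
          ((hci 0 R).const_mul 4) (fun y hy => by
            rw [pE_of_nonneg hy.1]
            have := mul_le_mul_of_nonneg_right (psiD_mul_le (g y) (d' y))
              (show 0 ≤ Real.exp (-y) / 2 by positivity)
            linarith)
        rw [intervalIntegral.integral_add (hDc.intervalIntegrable _ _) ((hcg 0 R).div_const 2),
          intervalIntegral.integral_div, intervalIntegral.integral_const_mul, e, hg0] at hle
        have : 0 ≤ psi (g R) * (Real.exp (-R) / 2) := by have := psi_nonneg (g R); positivity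
        linarith
      have hneg : (∫ y in (-R)..0, psi (g y) * pE y) ≤ 8 * ∫ y in (-R)..0, psi (d' y) * pE y := by
        have hD : ∀ y, HasDerivAt (fun y => psi (g y) * (Real.exp y / 2))
            ((psiD (g y) * d' y + psi (g y)) * (Real.exp y / 2)) y := fun y => by
          refine HasDerivAt.congr_deriv ((hgd y).mul ((Real.hasDerivAt_exp y).div_const 2)) ?_
          ring
        have hDc : Continuous (fun y => (psiD (g y) * d' y + psi (g y)) * (Real.exp y / 2)) :=
          (hcd.add hcp).mul (by fun_prop)
        have e := intervalIntegral.integral_eq_sub_of_hasDerivAt (fun y _ => hD y)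
          (hDc.intervalIntegrable (-R) (0:ℝ))
        have hle := intervalIntegral.integral_mono_on (show -R ≤ 0 by linarith)
          (((hcg (-R) 0).div_const 2).sub ((hci (-R) 0).const_mul 4))
          (hDc.intervalIntegrable (-R) (0:ℝ)) (fun y hy => by
            rw [pE_of_nonpos hy.2]
            have := mul_le_mul_of_nonneg_right (psiD_mul_le (g y) (-d' y))
              (show 0 ≤ Real.exp y / 2 by positivity)
            rw [psi_neg] at this
            linarith)
        rw [intervalIntegral.integral_sub ((hcg (-R) 0).div_const 2) ((hci (-R) 0).const_mul 4),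
          intervalIntegral.integral_div, intervalIntegral.integral_const_mul, e, hg0] at hle
        have : 0 ≤ psi (g (-R)) * (Real.exp (-R) / 2) := by
          have := psi_nonneg (g (-R)); positivity
        linarith
      rw [← intervalIntegral.integral_add_adjacent_intervals (hci (-R) 0) (hci 0 R),
        ← intervalIntegral.integral_add_adjacent_intervals (hcg (-R) 0) (hcg 0 R)]
      linarith
    exact le_of_tendsto_of_tendsto (tendsto_interval hPg) ((tendsto_interval hP').const_mul 8)
      (eventually_atTop.mpr ⟨0, key⟩)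
  -- (3) shift of the median
  have step3 : psi (d 0) ≤ 10 * T := by
    have hd0 : d 0 = S 0 := by simp [hd]
    have hei : ∀ y, Real.exp (-(L y)) * pE y = pE (S y) * S' y := fun y => by
      calc Real.exp (-(L y)) * pE y = Real.exp (-(L y)) * (Real.exp (L y) * pE (S y) * S' y) := by
            rw [hid y]
        _ = (Real.exp (-(L y)) * Real.exp (L y)) * (pE (S y) * S' y) := by ring
        _ = pE (S y) * S' y := by rw [← Real.exp_add]; simp
    have hEi : Integrable (fun y => Real.exp (-(L y)) * pE y) :=
      Integrable.bdd_pE (hLc.neg.rexp) (B := Real.exp M) (fun y => by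
        rw [abs_of_pos (Real.exp_pos _)]
        exact Real.exp_le_exp.mpr (by linarith [(abs_le.mp (hLb y)).1]))
    have hcd : ∀ y, HasDerivAt (fun y => PE (S y)) (Real.exp (-(L y)) * pE y) y := fun y =>
      HasDerivAt.congr_deriv ((hasDerivAt_PE (S y)).comp y (hSd y)) (hei y).symm
    have eI : ∫ y in Ioi 0, Real.exp (-(L y)) * pE y = 1 - PE (S 0) :=
      integral_Ioi_of_hasDerivAt_of_tendsto' (fun y _ => hcd y) hEi.integrableOn
        (tendsto_PE_atTop.comp hStop)
    have eB : ∫ y in Iic 0, Real.exp (-(L y)) * pE y = PE (S 0) := by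
      rw [integral_Iic_of_hasDerivAt_of_tendsto' (fun y _ => hcd y) hEi.integrableOn
        (tendsto_PE_atBot.comp hSbot), sub_zero]
    set P := PE (S 0) with hPdef
    have hP0 : 0 < P := (PE_mem _).1
    have hP1 : P < 1 := (PE_mem _).2
    have lower : ∀ (t : ℝ), 0 < t → ∀ y,
        (Real.log t + 1) * pE y - t * (Real.exp (-(L y)) * pE y) ≤ L y * pE y := fun t ht y => by
      have h1 := Real.one_sub_inv_le_log_of_pos (show 0 < Real.exp (L y) / t by positivity)
      rw [Real.log_div (Real.exp_ne_zero _) ht.ne', Real.log_exp, inv_div] at h1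
      have h2 : t / Real.exp (L y) = t * Real.exp (-(L y)) := by
        rw [Real.exp_neg, div_eq_mul_inv]
      have := mul_le_mul_of_nonneg_right (show Real.log t + 1 - t * Real.exp (-(L y)) ≤ L y by
        linarith) (pE_pos y).le
      linarith
    have bI : (Real.log (1 / (2 * (1 - P))) + 1) * (1 / 2) - 1 / (2 * (1 - P)) * (1 - P)
        ≤ ∫ y in Ioi 0, L y * pE y := by
      have := setIntegral_mono (s := Ioi (0:ℝ)) (μ := volume)
        (((integrable_pE.const_mul _).sub (hEi.const_mul _)).integrableOn) hLi.integrableOn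
        (lower (1 / (2 * (1 - P))) (div_pos one_pos (by linarith)))
      simp only [Pi.sub_apply] at this
      rw [integral_sub (integrable_pE.const_mul _).integrableOn (hEi.const_mul _).integrableOn,
        integral_const_mul, integral_const_mul, integral_pE_Ioi, eI, PE_zero] at this
      linarith
    have bB : (Real.log (1 / (2 * P)) + 1) * (1 / 2) - 1 / (2 * P) * P
        ≤ ∫ y in Iic 0, L y * pE y := by
      have := setIntegral_mono (s := Iic (0:ℝ)) (μ := volume)
        (((integrable_pE.const_mul _).sub (hEi.const_mul _)).integrableOn) hLi.integrableOn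
        (lower (1 / (2 * P)) (by positivity))
      simp only [Pi.sub_apply] at this
      rw [integral_sub (integrable_pE.const_mul _).integrableOn (hEi.const_mul _).integrableOn,
        integral_const_mul, integral_const_mul, integral_pE_Iic, eB, PE_zero] at this
      linarith
    have hsum : (∫ y in Iic 0, L y * pE y) + ∫ y in Ioi 0, L y * pE y = T :=
      intervalIntegral.integral_Iic_add_Ioi hLi.integrableOn hLi.integrableOn
    have e1 : 1 / (2 * (1 - P)) * (1 - P) = 1 / 2 := by
      field_simp [(show (1:ℝ) - P ≠ 0 by linarith)]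
    have e2 : 1 / (2 * P) * P = 1 / 2 := by field_simp
    have hT2 : -(Real.log (4 * (P * (1 - P)))) / 2 ≤ T := by
      have e3 : Real.log (1 / (2 * P)) + Real.log (1 / (2 * (1 - P)))
          = -(Real.log (4 * (P * (1 - P)))) := by
        rw [one_div, one_div, Real.log_inv, Real.log_inv,
          show (4:ℝ) * (P * (1 - P)) = (2 * P) * (2 * (1 - P)) by ring,
          Real.log_mul (by positivity) (mul_ne_zero two_ne_zero (by linarith))]
        ring
      rw [e1] at bI; rw [e2] at bB
      linarith
    set a := |S 0| with ha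
    have e4 : 4 * (P * (1 - P)) = Real.exp (-a) * (2 - Real.exp (-a)) := by
      rcases le_total (S 0) 0 with h | h
      · rw [hPdef, PE_of_nonpos h, ha, abs_of_nonpos h, neg_neg]; ring
      · rw [hPdef, PE_of_nonneg h, ha, abs_of_nonneg h]; ring
    rw [e4, Real.log_mul (Real.exp_ne_zero _)
      (by linarith [Real.exp_le_one_iff.mpr (neg_nonpos.mpr (abs_nonneg (S 0)))]),
      Real.log_exp] at hT2
    have := psi_le_binary (a := a) (abs_nonneg _)
    rw [hd0, ← psi_abs, ← ha]
    linarith
  have hPd : Integrable (fun y => psi (d y) * pE y) :=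
    Integrable.bdd_pE (continuous_psi.comp hdc) (fun y => by
      rw [abs_of_nonneg (psi_nonneg _)]; exact (psi_le_abs _).trans (hdb y))
  have step4 : ∫ y, psi (d y) * pE y ≤ 168 * T := by
    have h1 : ∫ y, psi (d y) * pE y ≤ ∫ y, (4 * (psi (g y) * pE y) + 4 * psi (d 0) * pE y) := by
      refine integral_mono hPd ((hPg.const_mul 4).add (integrable_pE.const_mul _)) (fun y => ?_)
      have := mul_le_mul_of_nonneg_right (psi_add (g y) (d 0)) (pE_pos y).le
      simp only [hg, sub_add_cancel] at this ⊢
      linarith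
    rw [integral_add (hPg.const_mul 4) (integrable_pE.const_mul _), integral_const_mul,
      integral_const_mul, integral_pE] at h1
    linarith
  -- (4) convexity of the potential
  set W : ℝ → ℝ := fun y => F' (c.φ (S y)) * (c.φ (S y) - c.φ y) with hW
  have hWc : Continuous W := (hF'c.comp (hφc.comp hSc)).mul ((hφc.comp hSc).sub hφc)
  have hWb : ∀ y, |W y| ≤ M * (c.φ' 0 * (2 * M)) := fun y => by
    rw [hW, abs_mul]
    refine mul_le_mul (hF'b _) ((c.lip _ _).trans ?_) (abs_nonneg _) hM
    exact mul_le_mul_of_nonneg_left (hdb y) (c.pos 0).le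
  have hWi : Integrable (fun y => W y * pE y) := Integrable.bdd_pE hWc hWb
  have step5 : T ≤ ∫ y, W y * pE y := by
    set Q : ℝ → ℝ := fun u => pE u / c.φ' u with hQ
    have hQpos : ∀ u, 0 < Q u := fun u => div_pos (pE_pos u) (c.pos u)
    have hQc : Continuous Q := continuous_pE.div c.cont' (fun u => (c.pos u).ne')
    set Φ : ℝ → ℝ := fun y => (c.φ y - c.φ (S y)) * (Real.exp (L y) * Q (S y)) with hΦ
    have hΦc : Continuous Φ := (hφc.sub (hφc.comp hSc)).mul (hLc.rexp.mul (hQc.comp hSc))
    set G : ℝ → ℝ := fun y =>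
      (c.φ' y - c.φ' (S y) * S' y) * (Real.exp (L y) * Q (S y)) +
        (c.φ y - c.φ (S y)) * (Real.exp (L y) * (F' (c.φ (S y)) * (c.φ' (S y) * S' y)) * Q (S y)
          + Real.exp (L y) * (-(c.D (S y)) * pE (S y) * S' y)) with hGdef
    have hGd : ∀ y, HasDerivWithinAt Φ (G y) (Ioi y) y := fun y => by
      have h1 : HasDerivAt (fun y => c.φ y - c.φ (S y)) (c.φ' y - c.φ' (S y) * S' y) y :=
        HasDerivAt.sub (c.hasDerivAt y) ((c.hasDerivAt (S y)).comp y (hSd y))
      have h2 : HasDerivAt (fun y => Real.exp (L y))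
          (Real.exp (L y) * (F' (c.φ (S y)) * (c.φ' (S y) * S' y))) y :=
        ((hF _).comp y ((c.hasDerivAt (S y)).comp y (hSd y))).exp
      have h3 : HasDerivWithinAt (fun y => Q (S y)) (-(c.D (S y)) * pE (S y) * S' y) (Ioi y) y :=
        (c.q_deriv (S y)).comp y (hSd y).hasDerivWithinAt (fun t ht => hSm ht)
      exact h1.hasDerivWithinAt.mul (h2.hasDerivWithinAt.mul h3)
    have hpt : ∀ y, L y * pE y - W y * pE y ≤ G y := fun y => by
      have hE : Real.exp (L y) * Q (S y) * (c.φ' (S y) * S' y) = pE y := by
        rw [← hid y]; simp only [hQ]; field_simp [(c.pos (S y)).ne']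
      have hx' : 0 < c.φ' (S y) * S' y := mul_pos (c.pos _) (hS'pos y)
      have hQy : Q y * c.φ' y = pE y := by simp only [hQ]; field_simp [(c.pos y).ne']
      have hL2 : L y = Real.log (Q y) - Real.log (Q (S y)) +
          (Real.log (c.φ' y) - Real.log (c.φ' (S y) * S' y)) := by
        have := congrArg Real.log (hE.trans hQy.symm)
        rw [Real.log_mul (mul_ne_zero (Real.exp_ne_zero _) (hQpos _).ne') hx'.ne',
          Real.log_mul (Real.exp_ne_zero _) (hQpos _).ne', Real.log_exp,
          Real.log_mul (hQpos _).ne' (c.pos y).ne'] at this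
        linarith
      have h1 := c.subgrad (S y) y
      have h2 := Real.log_le_sub_one_of_pos (div_pos (c.pos y) hx')
      rw [Real.log_div (c.pos y).ne' hx'.ne'] at h2
      have h3 : L y ≤ -(c.D (S y)) * (c.φ y - c.φ (S y))
          + (c.φ' y / (c.φ' (S y) * S' y) - 1) := by linarith
      have h4 := mul_le_mul_of_nonneg_right h3 (pE_pos y).le
      have e1 : (c.φ' y / (c.φ' (S y) * S' y) - 1) * pE y
          = (c.φ' y - c.φ' (S y) * S' y) * (Real.exp (L y) * Q (S y)) := by
        rw [← hE]
        generalize c.φ' (S y) * S' y = b at hx' ⊢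
        field_simp [hx'.ne']
      have e2 : G y = (c.φ' y - c.φ' (S y) * S' y) * (Real.exp (L y) * Q (S y)) +
          (c.φ y - c.φ (S y)) * (F' (c.φ (S y)) * pE y - c.D (S y) * pE y) := by
        simp only [hGdef]
        congr 1
        congr 1
        have ha : Real.exp (L y) * (F' (c.φ (S y)) * (c.φ' (S y) * S' y)) * Q (S y)
            = F' (c.φ (S y)) * pE y := by rw [← hE]; ring
        have hb : Real.exp (L y) * (-(c.D (S y)) * pE (S y) * S' y) = -(c.D (S y) * pE y) := by
          rw [← hid y]; ring
        rw [ha, hb]; ring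
      rw [e2, ← e1]
      simp only [hW]
      linarith
    have key : ∀ R, 0 ≤ R →
        (∫ y in (-R)..R, (L y * pE y - W y * pE y)) ≤ Φ R - Φ (-R) := fun R hR =>
      intervalIntegral.integral_le_sub_of_hasDeriv_right_of_le (by linarith) hΦc.continuousOn
        (fun y _ => hGd y) (hLi.sub hWi).integrableOn (fun y _ => hpt y)
    have bnd : ∀ y, ‖Φ y‖ ≤
        Real.exp M * (Q (S y) * (c.φ (S y + 2 * M) - c.φ (S y - 2 * M))) := fun y => by
      have hm := c.strictMono_φ.monotone
      obtain ⟨ha, hb⟩ := abs_le.mp (hdb y)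
      simp only [hd] at ha hb
      have : |c.φ y - c.φ (S y)| ≤ c.φ (S y + 2 * M) - c.φ (S y - 2 * M) := by
        rw [abs_le]
        constructor <;> linarith [hm (show y ≤ S y + 2 * M by linarith),
          hm (show S y - 2 * M ≤ y by linarith), hm (show S y ≤ S y + 2 * M by linarith),
          hm (show S y - 2 * M ≤ S y by linarith)]
      rw [Real.norm_eq_abs, hΦ, abs_mul, abs_mul, abs_of_pos (Real.exp_pos _),
        abs_of_pos (hQpos _)]
      calc |c.φ y - c.φ (S y)| * (Real.exp (L y) * Q (S y))
          ≤ (c.φ (S y + 2 * M) - c.φ (S y - 2 * M)) * (Real.exp M * Q (S y)) := by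
            refine mul_le_mul this (mul_le_mul_of_nonneg_right (Real.exp_le_exp.mpr
              (abs_le.mp (hLb y)).2) (hQpos _).le) (mul_nonneg (Real.exp_pos _).le (hQpos _).le)
              ((abs_nonneg _).trans this)
        _ = _ := by ring
    have tT : Tendsto Φ atTop (𝓝 0) := squeeze_zero_norm bnd (by
      simpa using ((c.decayTop (2 * M) (by linarith)).comp hStop).const_mul (Real.exp M))
    have tB : Tendsto Φ atBot (𝓝 0) := squeeze_zero_norm bnd (by
      simpa using ((c.decayBot (2 * M) (by linarith)).comp hSbot).const_mul (Real.exp M))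
    have := le_of_tendsto_of_tendsto (tendsto_interval (hLi.sub hWi))
      (tT.sub (tB.comp tendsto_neg_atTop_atBot)) (eventually_atTop.mpr ⟨0, key⟩)
    simp only [Pi.sub_apply] at this
    rw [integral_sub hLi hWi] at this
    linarith
  -- (5) Young
  have hhi : Integrable (fun y => h (c.φ (S y)) * pE y) :=
    integrable_pE.bdd_mul (c := B) ((hhm.comp (hφc.comp hSc).measurable).aestronglyMeasurable)
      (Eventually.of_forall fun y => by rw [Real.norm_eq_abs]; exact hhb _)
  have step6 : ∫ y, W y * pE y
      ≤ (1 / K0) * ((∫ y, h (c.φ (S y)) * pE y) + 400 * ∫ y, psi (d y) * pE y) := by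
    rw [← integral_const_mul 400, ← integral_add hhi (hPd.const_mul 400), ← integral_const_mul]
    refine integral_mono hWi ((hhi.add (hPd.const_mul 400)).const_mul _) (fun y => ?_)
    obtain ⟨hp, hm⟩ := hexpI (c.φ (S y))
    have h1 := c.young (K0 * F' (c.φ (S y))) (S y) y hp hm
    have h2 : K0 * W y ≤ h (c.φ (S y)) + 400 * psi (d y) := by
      simp only [hW, hd] at *
      linarith [hh (c.φ (S y))]
    have h3 : W y ≤ 1 / K0 * (h (c.φ (S y)) + 400 * psi (d y)) := by
      rw [one_div, ← div_eq_inv_mul, le_div_iff₀ K0_pos]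
      linarith
    have := mul_le_mul_of_nonneg_right h3 (pE_pos y).le
    linarith
  have final : T ≤ 2 / K0 * ∫ y, h (c.φ (S y)) * pE y := by
    have h1 := step5.trans step6
    have h2 : (1 / K0) * (400 * ∫ y, psi (d y) * pE y) ≤ T / 2 := by
      calc (1 / K0) * (400 * ∫ y, psi (d y) * pE y) ≤ (1 / K0) * (400 * (168 * T)) := by
            refine mul_le_mul_of_nonneg_left (by linarith) (by have := K0_pos; positivity)
        _ = T / 2 := by simp only [K0]; ring
    rw [mul_add] at h1
    linarith [show 2 / K0 * (∫ y, h (c.φ (S y)) * pE y)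
      = 2 * (1 / K0 * ∫ y, h (c.φ (S y)) * pE y) by ring]
  have cv : ∀ k : ℝ → ℝ, ∫ x, k x * Real.exp (F x) ∂ν = ∫ y, k (c.φ (S y)) * pE y := fun k => by
    rw [c.integral_map, ← integral_comp_quantile hSm hSr hSd (fun u _ => hwpos u)
      (fun u hu => absurd (mem_univ u) hu) (fun u => k (c.φ u))]
    exact integral_congr_ae (Eventually.of_forall fun u => by simp only [hw]; ring)
  rw [cv F, cv h]
  exact final

end Vale.Agent.P245
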