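import Mathlib.MeasureTheory.Function.JacobianOneDim
import Mathlib.MeasureTheory.Integral.IntervalIntegral.FundThmCalculus
import Mathlib.MeasureTheory.Integral.IntegralEqImproper
import Mathlib.Analysis.SpecialFunctions.ImproperIntegrals
import Mathlib.Analysis.Calculus.Deriv.MeanValue
import Mathlib.Topology.Order.MonotoneContinuity
import Mathlib.Tactic

/-! The two-sided exponential reference density and monotone quantile maps. -/

namespace Vale.Agent.P245

open MeasureTheory Set Filter Topology Real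

/-- Two-sided exponential density. -/
noncomputable def pE (y : ℝ) : ℝ := Real.exp (-|y|) / 2

/-- Two-sided exponential distribution function. -/
noncomputable def PE (y : ℝ) : ℝ := if y ≤ 0 then Real.exp y / 2 else 1 - Real.exp (-y) / 2

lemma pE_pos (y : ℝ) : 0 < pE y := by unfold pE; positivity

lemma continuous_pE : Continuous pE := by unfold pE; fun_prop

lemma pE_zero : pE 0 = 1 / 2 := by simp [pE]

lemma pE_of_nonneg {y : ℝ} (h : 0 ≤ y) : pE y = Real.exp (-y) / 2 := by
  simp [pE, abs_of_nonneg h]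

lemma pE_of_nonpos {y : ℝ} (h : y ≤ 0) : pE y = Real.exp y / 2 := by
  simp [pE, abs_of_nonpos h]

lemma pE_neg (y : ℝ) : pE (-y) = pE y := by simp [pE]

lemma PE_of_nonpos {y : ℝ} (h : y ≤ 0) : PE y = Real.exp y / 2 := by simp [PE, h]

lemma PE_of_nonneg {y : ℝ} (h : 0 ≤ y) : PE y = 1 - Real.exp (-y) / 2 := by
  rcases h.eq_or_lt with h | h
  · subst h; norm_num [PE]
  · simp [PE, h.not_ge]

lemma PE_zero : PE 0 = 1 / 2 := by simp [PE]

lemma hasDerivAt_PE (y : ℝ) : HasDerivAt PE (pE y) y := by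
  have hl : ∀ y : ℝ, y ≤ 0 → HasDerivWithinAt PE (pE y) (Iic 0) y := fun y hy =>
    HasDerivWithinAt.congr_deriv (HasDerivWithinAt.congr
      (HasDerivAt.hasDerivWithinAt ((Real.hasDerivAt_exp y).div_const 2))
      (fun x hx => PE_of_nonpos hx) (PE_of_nonpos hy)) (pE_of_nonpos hy).symm
  have hr : ∀ y : ℝ, 0 ≤ y → HasDerivWithinAt PE (pE y) (Ici 0) y := fun y hy => by
    have h := HasDerivAt.const_sub (1:ℝ) (((Real.hasDerivAt_exp (-y)).comp y (hasDerivAt_neg y)).div_const 2)
    refine HasDerivWithinAt.congr_deriv (HasDerivWithinAt.congr h.hasDerivWithinAt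
      (fun x hx => PE_of_nonneg hx) (PE_of_nonneg hy)) ?_
    rw [pE_of_nonneg hy]; ring
  rcases lt_trichotomy y 0 with h | h | h
  · exact (hl y h.le).hasDerivAt (Iic_mem_nhds h)
  · subst h
    have := (hl 0 le_rfl).union (hr 0 le_rfl)
    rw [Iic_union_Ici] at this
    exact hasDerivWithinAt_univ.mp this
  · exact (hr y h.le).hasDerivAt (Ici_mem_nhds h)

lemma continuous_PE : Continuous PE :=
  continuous_iff_continuousAt.mpr fun y => (hasDerivAt_PE y).continuousAt

lemma strictMono_PE : StrictMono PE :=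
  strictMono_of_hasDerivAt_pos hasDerivAt_PE pE_pos

lemma PE_mem (y : ℝ) : PE y ∈ Ioo (0:ℝ) 1 := by
  rcases le_total y 0 with h | h
  · rw [PE_of_nonpos h]
    have := Real.exp_le_one_iff.mpr h
    have := Real.exp_pos y
    constructor <;> linarith
  · rw [PE_of_nonneg h]
    have := Real.exp_le_one_iff.mpr (neg_nonpos.mpr h)
    have := Real.exp_pos (-y)
    constructor <;> linarith

lemma PE_surj {q : ℝ} (hq : q ∈ Ioo (0:ℝ) 1) : ∃ y, PE y = q := by
  rcases le_total q (1 / 2) with h | h
  · refine ⟨Real.log (2 * q), ?_⟩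
    rw [PE_of_nonpos, Real.exp_log (by linarith [hq.1])]
    · ring
    · exact Real.log_nonpos (by linarith [hq.1]) (by linarith)
  · refine ⟨-Real.log (2 * (1 - q)), ?_⟩
    rw [PE_of_nonneg, neg_neg, Real.exp_log (by linarith [hq.2])]
    · ring
    · exact neg_nonneg.mpr (Real.log_nonpos (by linarith [hq.2]) (by linarith))

lemma integrable_pE : Integrable pE := by
  rw [← integrableOn_univ, ← Iic_union_Ioi (a := (0:ℝ))]
  refine IntegrableOn.union ?_ ?_
  · exact IntegrableOn.congr_fun (f := fun y => Real.exp y / 2) ((integrableOn_exp_Iic 0).div_const 2)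
      (fun y hy => (pE_of_nonpos hy).symm) measurableSet_Iic
  · have : IntegrableOn (fun y : ℝ => Real.exp (-y)) (Ioi 0) := by
      exact integrableOn_exp_neg_Ioi 0
    exact IntegrableOn.congr_fun (f := fun y => Real.exp (-y) / 2) (this.div_const 2) (fun y hy => (pE_of_nonneg (le_of_lt hy)).symm)
      measurableSet_Ioi

lemma tendsto_PE_atBot : Tendsto PE atBot (𝓝 0) := by
  have : Tendsto (fun y : ℝ => Real.exp y / 2) atBot (𝓝 0) := by
    simpa using Real.tendsto_exp_atBot.div_const 2
  exact this.congr' (eventually_atBot.mpr ⟨0, fun y hy => (PE_of_nonpos hy).symm⟩)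

lemma tendsto_PE_atTop : Tendsto PE atTop (𝓝 1) := by
  have : Tendsto (fun y : ℝ => 1 - Real.exp (-y) / 2) atTop (𝓝 1) := by
    simpa using tendsto_const_nhds.sub (Real.tendsto_exp_neg_atTop_nhds_zero.div_const 2)
  exact this.congr' (eventually_atTop.mpr ⟨0, fun y hy => (PE_of_nonneg hy).symm⟩)

lemma integral_pE : ∫ y, pE y = 1 := by
  rw [integral_of_hasDerivAt_of_tendsto hasDerivAt_PE integrable_pE tendsto_PE_atBot
    tendsto_PE_atTop]
  norm_num

lemma integral_pE_Iic (y : ℝ) : ∫ t in Iic y, pE t = PE y := by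
  rw [integral_Iic_of_hasDerivAt_of_tendsto' (fun t _ => hasDerivAt_PE t) integrable_pE.integrableOn
    tendsto_PE_atBot, sub_zero]

lemma integral_pE_Ioi (y : ℝ) : ∫ t in Ioi y, pE t = 1 - PE y :=
  integral_Ioi_of_hasDerivAt_of_tendsto' (fun t _ => hasDerivAt_PE t) integrable_pE.integrableOn
    tendsto_PE_atTop

/-- Increasing rearrangement of the two-sided exponential law onto a positive density on an open
interval. -/
theorem exists_quantile {h : ℝ → ℝ} {J : Set ℝ} (hJ : IsOpen J) (hJc : J.OrdConnected)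
    (hcont : ContinuousOn h J) (hpos : ∀ x ∈ J, 0 < h x) (hout : ∀ x, x ∉ J → h x = 0)
    (hint : Integrable h) (htot : ∫ x, h x = 1) :
    ∃ φ : ℝ → ℝ, StrictMono φ ∧ range φ = J ∧
      (∀ y, HasDerivAt φ (pE y / h (φ y)) y) ∧
      (∀ y, ∫ x in Iic (φ y), h x = PE y) := by
  classical
  set G : ℝ → ℝ := fun x => ∫ t in Iic x, h t with hG
  have hnn : ∀ x, 0 ≤ h x := fun x => by
    by_cases hx : x ∈ J
    · exact (hpos x hx).le
    · exact (hout x hx).ge
  have hGeq : ∀ a x, G x = G a + ∫ t in a..x, h t := by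
    intro a x
    have := intervalIntegral.integral_Iic_sub_Iic (a := a) (b := x) hint.integrableOn
      hint.integrableOn
    simp only [hG]; linarith
  have hGc : Continuous G := by
    have : G = fun x => G 0 + ∫ t in (0:ℝ)..x, h t := funext (hGeq 0)
    rw [this]
    exact continuous_const.add (intervalIntegral.continuous_primitive
      (fun a b => hint.intervalIntegrable) 0)
  have hGbot : Tendsto G atBot (𝓝 0) := by
    have h1 : Tendsto (fun x => ∫ t in x..(0:ℝ), h t) atBot (𝓝 (∫ t in Iic (0:ℝ), h t)) :=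
      intervalIntegral_tendsto_integral_Iic 0 hint.integrableOn tendsto_id
    have h2 := h1.const_sub (G 0)
    simp only [hG, sub_self] at h2
    refine h2.congr (fun x => ?_)
    rw [intervalIntegral.integral_symm]
    have := hGeq 0 x
    simp only [hG] at this ⊢
    linarith
  have hGtop : Tendsto G atTop (𝓝 1) := by
    have h1 : Tendsto (fun x => ∫ t in (0:ℝ)..x, h t) atTop (𝓝 (∫ t in Ioi (0:ℝ), h t)) :=
      intervalIntegral_tendsto_integral_Ioi 0 hint.integrableOn tendsto_id
    have h2 := h1.const_add (G 0)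
    have h3 : G 0 + ∫ t in Ioi (0:ℝ), h t = 1 := by
      rw [← htot]; exact intervalIntegral.integral_Iic_add_Ioi hint.integrableOn hint.integrableOn
    rw [h3] at h2
    exact h2.congr (fun x => (hGeq 0 x).symm)
  have hGd : ∀ x ∈ J, HasDerivAt G (h x) x := by
    intro x hx
    have h1 : HasDerivAt (fun u => ∫ t in x..u, h t) (h x) x :=
      intervalIntegral.integral_hasDerivAt_right IntervalIntegrable.refl
        (hcont.stronglyMeasurableAtFilter hJ x hx) (hcont.continuousAt (hJ.mem_nhds hx))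
    exact (HasDerivAt.const_add (G x) h1).congr_of_eventuallyEq (Eventually.of_forall (hGeq x))
  have hGsm : StrictMonoOn G J := by
    refine strictMonoOn_of_deriv_pos hJc.convex hGc.continuousOn (fun x hx => ?_)
    rw [hJ.interior_eq] at hx
    rw [(hGd x hx).deriv]; exact hpos x hx
  have hmem : ∀ x, G x ∈ Ioo (0:ℝ) 1 → x ∈ J := by
    intro x hx
    by_contra hxJ
    by_cases hl : ∀ t ∈ J, x < t
    · have : G x = 0 := setIntegral_eq_zero_of_forall_eq_zero (fun t ht => hout t (fun htJ =>
        absurd ht (not_le.mpr (hl t htJ))))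
      linarith [hx.1]
    · push Not at hl
      obtain ⟨t, htJ, htx⟩ := hl
      have hsub : ∀ u ∈ J, u ≤ x := fun u hu => by
        by_contra hux
        exact hxJ (hJc.out htJ hu ⟨htx, (not_le.mp hux).le⟩)
      have : G x = 1 := by
        rw [← htot]
        exact setIntegral_eq_integral_of_forall_compl_eq_zero (fun u hu => hout u (fun huJ =>
          hu (hsub u huJ)))
      linarith [hx.2]
  have hGJ : ∀ x ∈ J, G x ∈ Ioo (0:ℝ) 1 := by
    intro x hx
    have hb : ∀ u, G u ∈ Icc (0:ℝ) 1 := fun u => ⟨setIntegral_nonneg measurableSet_Iic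
      (fun t _ => hnn t), by
        rw [← htot]; exact setIntegral_le_integral hint (Eventually.of_forall hnn)⟩
    obtain ⟨l, u, hxlu, hsub⟩ := mem_nhds_iff_exists_Ioo_subset.mp (hJ.mem_nhds hx)
    have h1 := hGsm (hsub ⟨by linarith [hxlu.1], by linarith [hxlu.1, hxlu.2]⟩ :
      (l + x) / 2 ∈ J) hx (by linarith [hxlu.1])
    have h2 := hGsm hx (hsub ⟨by linarith [hxlu.1, hxlu.2], by linarith [hxlu.2]⟩ :
      (x + u) / 2 ∈ J) (by linarith [hxlu.2])
    exact ⟨lt_of_le_of_lt (hb _).1 h1, lt_of_lt_of_le h2 (hb _).2⟩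
  have hinv : ∀ q ∈ Ioo (0:ℝ) 1, ∃ x, G x = q := by
    intro q hq
    have hlo : ∀ᶠ x in atBot, G x ≤ q := hGbot.eventually (eventually_le_nhds hq.1)
    have hhi : ∀ᶠ x in atTop, q ≤ G x := hGtop.eventually (eventually_ge_nhds hq.2)
    exact mem_range_of_exists_le_of_exists_ge hGc hlo.exists hhi.exists
  choose! Gi hGi using hinv
  have hGiJ : ∀ q ∈ Ioo (0:ℝ) 1, Gi q ∈ J := fun q hq => hmem _ (by rw [hGi q hq]; exact hq)
  have hGism : StrictMonoOn Gi (Ioo (0:ℝ) 1) := by
    intro q hq r hr hqr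
    by_contra hle
    have := (hGsm.monotoneOn) (hGiJ r hr) (hGiJ q hq) (not_lt.mp hle)
    rw [hGi r hr, hGi q hq] at this
    linarith
  have himg : Gi '' Ioo (0:ℝ) 1 = J := by
    apply Subset.antisymm
    · rintro _ ⟨q, hq, rfl⟩; exact hGiJ q hq
    · intro x hx
      exact ⟨G x, hGJ x hx, hGsm.injOn (hGiJ _ (hGJ x hx)) hx (hGi _ (hGJ x hx))⟩
  have hGic : ∀ q ∈ Ioo (0:ℝ) 1, ContinuousAt Gi q := fun q hq =>
    hGism.continuousAt_of_image_mem_nhds (isOpen_Ioo.mem_nhds hq)
      (by rw [himg]; exact hJ.mem_nhds (hGiJ q hq))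
  refine ⟨fun y => Gi (PE y), fun a b hab => hGism (PE_mem a) (PE_mem b) (strictMono_PE hab),
    ?_, fun y => ?_, fun y => hGi _ (PE_mem y)⟩
  · have : range PE = Ioo (0:ℝ) 1 := by
      apply Subset.antisymm
      · rintro _ ⟨y, rfl⟩; exact PE_mem y
      · intro q hq; exact PE_surj hq
    rw [← himg, ← this, ← range_comp]; rfl
  · have hne : h (Gi (PE y)) ≠ 0 := (hpos _ (hGiJ _ (PE_mem y))).ne'
    have h1 : HasDerivAt Gi (h (Gi (PE y)))⁻¹ (PE y) :=
      HasDerivAt.of_local_left_inverse (hGic _ (PE_mem y)) (hGd _ (hGiJ _ (PE_mem y))) hne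
        (eventually_of_mem (isOpen_Ioo.mem_nhds (PE_mem y)) fun q hq => hGi q hq)
    have h2 := h1.comp y (hasDerivAt_PE y)
    refine h2.congr_deriv ?_
    ring

/-- Change of variables along such a map, for integrands on the target. -/
theorem integral_comp_quantile {h φ : ℝ → ℝ} {J : Set ℝ} (hmono : StrictMono φ)
    (hrange : range φ = J) (hderiv : ∀ y, HasDerivAt φ (pE y / h (φ y)) y)
    (hpos : ∀ x ∈ J, 0 < h x) (hout : ∀ x, x ∉ J → h x = 0) (g : ℝ → ℝ) :
    ∫ x, g x * h x = ∫ y, g (φ y) * pE y := by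
  have himg : φ '' univ = J := by rw [image_univ, hrange]
  have hJ0 : ∫ x in J, g x * h x = ∫ x, g x * h x :=
    setIntegral_eq_integral_of_forall_compl_eq_zero (fun x hx => by simp [hout x hx])
  rw [← hJ0, ← himg, integral_image_eq_integral_abs_deriv_smul MeasurableSet.univ
    (fun y _ => (hderiv y).hasDerivWithinAt) hmono.injective.injOn, setIntegral_univ]
  refine integral_congr_ae (Eventually.of_forall fun y => ?_)
  have hy : 0 < h (φ y) := hpos _ (by rw [← hrange]; exact mem_range_self y)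
  simp only [smul_eq_mul]
  rw [abs_of_pos (div_pos (pE_pos y) hy)]
  field_simp

theorem integrable_comp_quantile {h φ : ℝ → ℝ} {J : Set ℝ} (hmono : StrictMono φ)
    (hrange : range φ = J) (hderiv : ∀ y, HasDerivAt φ (pE y / h (φ y)) y)
    (hpos : ∀ x ∈ J, 0 < h x) (hout : ∀ x, x ∉ J → h x = 0) (g : ℝ → ℝ) :
    Integrable (fun x => g x * h x) ↔ Integrable (fun y => g (φ y) * pE y) := by
  have himg : φ '' univ = J := by rw [image_univ, hrange]
  have hJ0 : IntegrableOn (fun x => g x * h x) J ↔ Integrable (fun x => g x * h x) :=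
    integrableOn_iff_integrable_of_support_subset (fun x hx => by
      by_contra hxJ
      exact hx (by simp [hout x hxJ]))
  rw [← hJ0, ← himg, integrableOn_image_iff_integrableOn_abs_deriv_smul MeasurableSet.univ
    (fun y _ => (hderiv y).hasDerivWithinAt) hmono.injective.injOn, integrableOn_univ]
  refine integrable_congr (Eventually.of_forall fun y => ?_)
  have hy : 0 < h (φ y) := hpos _ (by rw [← hrange]; exact mem_range_self y)
  simp only [smul_eq_mul]
  rw [abs_of_pos (div_pos (pE_pos y) hy)]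
  field_simp

end Vale.Agent.P245
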